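import Crest.Agent.X212.Line51.Rod
import Crest.Agent.X212.Line51.Og
import Crest.Agent.X212.Pic56.Log
import Crest.Agent.X212.Hz56.Rod
import Crest.Agent.X212.Pat85.Star

/-!
# X212 / Cls19, part Log (helper19): germs of logarithms off a divisor

* `LG D φ x` : near `x` the function `φ` has a continuous logarithm on `D`;
* `exists_ord`, `ord_unique` : the two orders of a function on `{z₁ z₂ ≠ 0} ⊆ ℂ²` at a point;
* `Og.ratio`, `Og.diff`, `fsm_of_og`, `exists_glue_log` : phases of unit sections and their gluing.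
-/

set_option autoImplicit false
set_option linter.unusedSectionVars false

open Set Filter Topology Function Matrix Metric
open scoped ContDiff Manifold
open Crest.Agent.R208 Crest.Agent.R208.F Crest.Agent.R208.FI Crest.Agent.X212.Dr59
  Crest.Agent.X212.Pj41 Crest.Agent.X212.Line51 Crest.Agent.X212.Pic56
open Crest.Agent.X212.Glue52 (dir)
open Crest.Agent.X212.Hz56 (NSep)
open Complex (exp log)

noncomputable section

namespace Crest.Agent.X212.Cls19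

section top

variable {M Z : Type*} [TopologicalSpace M] [TopologicalSpace Z] {D : Set M} {φ φ' : M → ℂ} {x : M}

/-- near `x` the function `φ` has a continuous logarithm on `D` -/
def LG (D : Set M) (φ : M → ℂ) (x : M) : Prop :=
  ∃ L : M → ℂ, ∀ᶠ y in 𝓝 x, y ∈ D → ContinuousAt L y ∧ φ y = exp (L y)

theorem LG.congr (h : LG D φ x) (e : ∀ᶠ y in 𝓝 x, y ∈ D → φ' y = φ y) : LG D φ' x :=
  let ⟨L, a⟩ := h
  ⟨L, (a.and e).mono fun _ b c => ⟨(b.1 c).1, (b.2 c).trans (b.1 c).2⟩⟩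

theorem lg_of_hasLog {V : Set M} (hV : V ∈ 𝓝 x) (ho : IsOpen (V ∩ D)) (h : HasLog φ (V ∩ D)) :
    LG D φ x :=
  let ⟨L, a, b⟩ := h
  ⟨L, eventually_of_mem hV fun y c d => ⟨a.continuousAt (ho.mem_nhds ⟨c, d⟩), b y ⟨c, d⟩⟩⟩

theorem LG.hasLog (h : LG D φ x) : ∃ V ∈ 𝓝 x, HasLog φ (V ∩ D) :=
  let ⟨L, a⟩ := h
  ⟨_, a, L, fun _ b => (b.1 b.2).1.continuousWithinAt, fun _ b => (b.1 b.2).2⟩

theorem lg_chart (e : OpenPartialHomeomorph Z M) {z : Z} (hz : z ∈ e.source) {D' : Set Z}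
    (hD : ∀ w ∈ e.source, e w ∈ D ↔ w ∈ D') : LG D φ (e z) ↔ LG D' (fun w => φ (e w)) z := by
  constructor
  · rintro ⟨L, a⟩
    refine ⟨fun w => L (e w), ?_⟩
    filter_upwards [(e.continuousAt hz).eventually a, e.open_source.mem_nhds hz] with w b c d
    exact ⟨(b ((hD w c).2 d)).1.comp (e.continuousAt c), (b ((hD w c).2 d)).2⟩
  · rintro ⟨L, a⟩
    refine ⟨fun y => L (e.symm y), ?_⟩
    rw [← e.map_nhds_eq hz, eventually_map]
    filter_upwards [a, e.open_source.mem_nhds hz] with w b c d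
    have k := b ((hD w c).1 d)
    refine ⟨ContinuousAt.comp (by rw [e.left_inv c]; exact k.1)
      (e.continuousAt_symm (e.map_source c)), by rw [e.left_inv c]; exact k.2⟩

end top

/-! ### the model -/

theorem exists_def (w : ℂ) {δ : ℝ} (hδ : 0 < δ) : ∃ (ε : ℝ) (r : Circle → ℂ), 0 < ε ∧ ε ≤ δ ∧
    Continuous r ∧ (∀ u, r u ∈ ball w ε ∧ r u ≠ 0) ∧ (w = 0 → ∀ u, dir (r u) = u) ∧
    ∀ t ∈ Icc (0 : ℝ) 1, ∀ z ∈ ball w ε, z ≠ 0 →
      (1 - t) • r (dir z) + t • z ∈ ball w ε ∧ (1 - t) • r (dir z) + t • z ≠ 0 := by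
  have cv : ∀ {ε : ℝ} {a z : ℂ} {t : ℝ}, t ∈ Icc (0 : ℝ) 1 → a ∈ ball w ε → z ∈ ball w ε →
      (1 - t) • a + t • z ∈ ball w ε := fun ht ha hz =>
    convex_ball w _ ha hz (sub_nonneg.2 ht.2) ht.1 (sub_add_cancel _ _)
  by_cases h : w = 0
  · subst h
    have hb : ∀ u : Circle, ((δ / 2 : ℝ) : ℂ) * u ∈ ball (0 : ℂ) δ := fun u => by
      rw [mem_ball_zero_iff, norm_mul, Circle.norm_coe, mul_one, Complex.norm_real,
        Real.norm_of_nonneg (half_pos hδ).le]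
      exact half_lt_self hδ
    refine ⟨δ, fun u => (δ / 2 : ℝ) * u, hδ, le_rfl, by fun_prop, fun u => ⟨hb u,
      mul_ne_zero (Complex.ofReal_ne_zero.2 (half_pos hδ).ne') u.coe_ne_zero⟩,
      fun _ => Glue52.dir_mul (half_pos hδ), fun t ht z hz h0 => ⟨cv ht (hb _) hz, ?_⟩⟩
    have e : (1 - t) • (((δ / 2 : ℝ) : ℂ) * dir z) + t • z =
        (((1 - t) * (δ / 2) + t * ‖z‖ : ℝ) : ℂ) * dir z := by
      have := Glue52.norm_mul_dir z
      simp only [Complex.real_smul]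
      push_cast
      linear_combination (-t : ℂ) * this
    rw [e]
    refine mul_ne_zero (Complex.ofReal_ne_zero.2 (ne_of_gt ?_)) (Circle.coe_ne_zero _)
    have h1 := norm_pos_iff.2 h0
    rcases ht.1.eq_or_lt with k | k
    · rw [← k]; linarith
    · have := mul_nonneg (sub_nonneg.2 ht.2) (half_pos hδ).le
      have := mul_pos k h1
      linarith
  · have h1 : 0 < min δ ‖w‖ := lt_min hδ (norm_pos_iff.2 h)
    refine ⟨min δ ‖w‖, fun _ => w, h1, min_le_left _ _, continuous_const,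
      fun _ => ⟨mem_ball_self h1, h⟩, fun k => absurd k h, fun t ht z hz _ =>
        ⟨cv ht (mem_ball_self h1) hz, fun e => ?_⟩⟩
    have := cv ht (mem_ball_self h1) hz
    rw [e, mem_ball, dist_zero_left] at this
    exact (min_le_right _ _).not_gt this

/-- the complement of the coordinate axes -/
def D2 : Set (ℂ × ℂ) := {z | z.1 ≠ 0 ∧ z.2 ≠ 0}

theorem isOpen_D2 : IsOpen D2 :=
  (isOpen_ne.preimage continuous_fst).inter (isOpen_ne.preimage continuous_snd)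

theorem exists_box {z₀ : ℂ × ℂ} {V : Set (ℂ × ℂ)} (h : V ∈ 𝓝 z₀) :
    ∃ δ > 0, ∀ ε ≤ δ, ∀ ε' ≤ δ, ball z₀.1 ε ×ˢ ball z₀.2 ε' ⊆ V := by
  obtain ⟨δ, hδ, k⟩ := Metric.mem_nhds_iff.1 h
  exact ⟨δ, hδ, fun ε a ε' b => (Set.prod_mono (ball_subset_ball a) (ball_subset_ball b)).trans
    (by rwa [ball_prod_same])⟩

/-- **the orders exist** -/
theorem exists_ord {φ : ℂ × ℂ → ℂ} {z₀ : ℂ × ℂ}
    (h : ∀ᶠ z in 𝓝 z₀, z ∈ D2 → ContinuousAt φ z ∧ φ z ≠ 0) :
    ∃ j j' : ℤ, LG D2 (fun z => φ z * ((dir z.1 : ℂ) ^ j * (dir z.2 : ℂ) ^ j')⁻¹) z₀ := by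
  obtain ⟨δ, hδ, hb⟩ := exists_box h
  obtain ⟨ε, r, a1, a2, a3, a4, -, a5⟩ := exists_def z₀.1 hδ
  obtain ⟨ε', r', b1, b2, b3, b4, -, b5⟩ := exists_def z₀.2 hδ
  set P := ball z₀.1 ε ×ˢ ball z₀.2 ε' ∩ D2
  have hP : ∀ z ∈ P, ContinuousAt φ z ∧ φ z ≠ 0 := fun z hz => hb _ a2 _ b2 hz.1 hz.2
  have hr : ∀ u : Circle × Circle, (r u.1, r' u.2) ∈ P :=
    fun u => ⟨⟨(a4 _).1, (b4 _).1⟩, (a4 _).2, (b4 _).2⟩
  obtain ⟨j, j', hj⟩ := exists_deg_torus (φ := fun u => φ (r u.1, r' u.2))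
    (continuous_iff_continuousAt.2 fun u => ContinuousAt.comp (f := fun u : Circle × Circle =>
      (r u.1, r' u.2)) (hP _ (hr u)).1 (by fun_prop)) fun u => (hP _ (hr u)).2
  have n : ∀ u : Circle × Circle, (u.1 : ℂ) ^ j * (u.2 : ℂ) ^ j' ≠ 0 := fun u =>
    mul_ne_zero (zpow_ne_zero _ u.1.coe_ne_zero) (zpow_ne_zero _ u.2.coe_ne_zero)
  have k := HasLog.of_deform (φ := fun w : (ℂ × ℂ) × Circle × Circle =>
      φ w.1 * ((w.2.1 : ℂ) ^ j * (w.2.2 : ℂ) ^ j')⁻¹) (S := {w | w.1 ∈ P ∧ w.2 = (dir w.1.1, dir w.1.2)})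
    (S' := P ×ˢ univ) (S₀ := {w | w.1 = (r w.2.1, r' w.2.2)})
    (h := fun q => (((1 - q.1) • r q.2.2.1 + q.1 • q.2.1.1, (1 - q.1) • r' q.2.2.2 + q.1 • q.2.1.2), q.2.2))
    (fun w hw => (((hP _ hw.1).1.comp continuousAt_fst).mul
      (((((continuous_circle_zpow j).comp continuous_snd.fst).mul ((continuous_circle_zpow j').comp
        continuous_snd.snd)).inv₀ fun w => n w.2).continuousAt)).continuousWithinAt)
    (fun w hw => mul_ne_zero (hP _ hw.1).2 (inv_ne_zero (n _))) (by fun_prop)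
    (fun t ht w hw => by
      have c1 := a5 t ht _ hw.1.1.1 hw.1.2.1
      have c2 := b5 t ht _ hw.1.1.2 hw.1.2.2
      refine ⟨?_, mem_univ _⟩
      simp only [hw.2]
      exact ⟨⟨c1.1, c2.1⟩, c1.2, c2.2⟩)
    (fun w _ => by simp) (fun w _ => by simp)
    ((hj.comp continuous_snd.continuousOn (mapsTo_univ _ _)).congr fun w hw => by
      rw [show w.1 = _ from hw])
  refine ⟨j, j', lg_of_hasLog (prod_mem_nhds (ball_mem_nhds _ a1) (ball_mem_nhds _ b1))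
    ((isOpen_ball.prod isOpen_ball).inter isOpen_D2) ?_⟩
  exact k.comp (g := fun z => (z, dir z.1, dir z.2)) (continuousOn_id.prodMk
    ((Hz56.continuousOn_dir.comp continuousOn_fst fun _ a => a.2.1).prodMk
      (Hz56.continuousOn_dir.comp continuousOn_snd fun _ a => a.2.2))) fun _ a => ⟨a, rfl⟩

/-- **the orders are unique** -/
theorem ord_unique {j j' : ℤ} {z₀ : ℂ × ℂ}
    (h : LG D2 (fun z => (dir z.1 : ℂ) ^ j * (dir z.2 : ℂ) ^ j') z₀) :
    (z₀.1 = 0 → j = 0) ∧ (z₀.2 = 0 → j' = 0) := by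
  obtain ⟨V, hV, hl⟩ := h.hasLog
  obtain ⟨δ, hδ, hb⟩ := exists_box hV
  obtain ⟨ε, r, -, a2, a3, a4, a5, -⟩ := exists_def z₀.1 hδ
  obtain ⟨ε', r', -, b2, b3, b4, b5, -⟩ := exists_def z₀.2 hδ
  have hr : ∀ u u' : Circle, (r u, r' u') ∈ V ∩ D2 :=
    fun u u' => ⟨hb _ a2 _ b2 ⟨(a4 _).1, (b4 _).1⟩, (a4 _).2, (b4 _).2⟩
  have n : ∀ (u : Circle) (k : ℤ), (u : ℂ) ^ k ≠ 0 := fun u _ => zpow_ne_zero _ u.coe_ne_zero
  refine ⟨fun e => deg_unique ?_, fun e => deg_unique ?_⟩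
  · exact ((hl.comp (g := fun u => (r u, r' 1)) (by fun_prop) fun u _ => hr u 1).mul
      (HasLog.const (n (dir (r' 1)) j') _).inv).congr fun u _ => by
        simp only [a5 e]; rw [mul_inv_cancel_right₀ (n _ _)]
  · exact ((HasLog.const (n (dir (r 1)) j) _).inv.mul
      (hl.comp (g := fun u => (r 1, r' u)) (by fun_prop) fun u _ => hr 1 u)).congr fun u _ => by
        simp only [b5 e]; rw [inv_mul_cancel_left₀ (n _ _)]

/-! ### phases of unit sections -/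

/-- the phase of a real function -/
def ex {M : Type*} (ψ : M → ℝ) (y : M) : Circle := Circle.exp (ψ y)

theorem coe_ex {M : Type*} (ψ : M → ℝ) (y : M) : (ex ψ y : ℂ) = exp (ψ y * Complex.I) :=
  Circle.coe_exp _

theorem sc_ex_add {M : Type*} [TopologicalSpace M] {ψ φ d : M → ℝ} {y : M} (h : φ y = ψ y + d y) :
    sc (ex φ) y = sc (ex ψ) y * sc (ex d) y :=
  (sc_eq (h := ex ψ * ex d) (by simp only [ex, h, Circle.exp_add, Pi.mul_apply])).trans (sc_mul _ _ _)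

@[simp] theorem ex_zero {M : Type*} : ex (0 : M → ℝ) = 1 := funext fun _ => Circle.exp_zero

theorem exp_im {L : ℂ} (h : ‖exp L‖ = 1) : exp (L.im * Complex.I) = exp L := by
  rw [Complex.norm_exp, Real.exp_eq_one_iff] at h
  rw [← Complex.re_add_im L, h]
  simp

theorem norm_ent {a : Matrix Unit Unit ℂ} (h : PIso a 1 1) : ‖a () ()‖ = 1 := by
  have := congrFun (congrFun h.src ()) ()
  simp only [Matrix.mul_apply, Finset.univ_unique, Finset.sum_singleton, conjTranspose_apply,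
    one_apply_eq, PUnit.default_eq_unit, Complex.star_def, Complex.conj_mul'] at this
  exact (pow_eq_one_iff_of_nonneg (norm_nonneg _) two_ne_zero).1 (by exact_mod_cast this)

variable {E : Type} [NormedAddCommGroup E] [NormedSpace ℝ E] [FiniteDimensional ℝ E]
  {H : Type} [TopologicalSpace H] {I : ModelWithCorners ℝ E H} [I.Boundaryless]
  {M : Type} [TopologicalSpace M] [ChartedSpace H M] [IsManifold I ∞ M]
  {κ : Type*} [Fintype κ] {D O : Set M} {x : M} {p : M → Matrix κ κ ℂ}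
  {s s' S : M → Matrix κ Unit ℂ} {g g' : M → Circle} {ψ ψ' φ : M → ℝ} {k : M → ℂ}

theorem csm_ex (h : FSm I ψ x) : CSm I (ex ψ) x := contMDiff_circleExp.contMDiffAt.comp x h

theorem fsm_log (h : FSm I k x) (h' : k x ∈ Complex.slitPlane) : FSm I (fun y => log (k y)) x :=
  ((Complex.contDiffAt_log h').restrict_scalars ℝ).comp_contMDiffAt h

theorem exists_slog (h : ∀ᶠ y in 𝓝 x, FSm I k y) (h0 : k x ≠ 0) :
    ∃ L : M → ℂ, ∀ᶠ y in 𝓝 x, FSm I L y ∧ k y = exp (L y) := by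
  refine ⟨fun y => log (k x) + log (k y * (k x)⁻¹), ?_⟩
  filter_upwards [h, (h.self_of_nhds.continuousAt.mul_const (k x)⁻¹).eventually_mem
    (Complex.isOpen_slitPlane.mem_nhds (by simp [h0]))] with y a b
  refine ⟨contMDiffAt_const.add (fsm_log (FSm.mul' a contMDiffAt_const) b), ?_⟩
  rw [Complex.exp_add, Complex.exp_log h0, Complex.exp_log (Complex.slitPlane_ne_zero b)]
  field_simp

theorem fsm_of_exp (hψ : ContinuousAt ψ x) (h : FSm I k x)
    (e : ∀ᶠ y in 𝓝 x, k y = exp (ψ y * Complex.I)) : FSm I ψ x := by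
  have h0 : k x ≠ 0 := e.self_of_nhds ▸ Complex.exp_ne_zero _
  refine ((contMDiffAt_const (c := ψ x)).add (fsm_im (fsm_log (FSm.mul' h (contMDiffAt_const
    (c := (k x)⁻¹))) (by simp [h0])))).congr_of_eventuallyEq ?_
  filter_upwards [e, (hψ.sub_const (ψ x)).eventually_mem (Ioo_mem_nhds
    (show -Real.pi < ψ x - ψ x by simp [Real.pi_pos]) (show ψ x - ψ x < Real.pi by simp [Real.pi_pos]))]
    with y a b
  rw [Pi.add_apply, a, e.self_of_nhds, ← Complex.exp_neg, ← Complex.exp_add,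
    Complex.log_exp (by simpa using b.1) (by simpa using b.2.le)]
  simp

/-- the quotient of two orders -/
theorem og_ratio (h : Og I D p s g x) (h' : Og I D p s' g' x) : ∃ L : M → ℂ, ∀ᶠ y in 𝓝 x,
    FSm I L y ∧ (y ∈ D → ∀ c : M → Circle, s' y = s y * sc c y → (g y * c y : ℂ) = exp (L y) * g' y) := by
  obtain ⟨S, a⟩ := h
  obtain ⟨S', b⟩ := h'
  obtain ⟨L, hL⟩ := exists_slog (I := I) (x := x) (k := fun y => ((S y)ᴴ * S' y) () ())
    ((a.and b).mono fun _ c => (c.1.1.ct.mul c.2.1) _ _) (norm_ne_zero_iff.1 (by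
      rw [norm_ent (b.self_of_nhds.2.1.trans a.self_of_nhds.2.1.symm)]; exact one_ne_zero))
  refine ⟨L, ?_⟩
  filter_upwards [a, b, hL] with y a b l
  refine ⟨l.1, fun d c e => ?_⟩
  rw [a.2.2 d, b.2.2 d] at e
  have e' : (S y)ᴴ * S' y * sc g' y = sc g y * sc c y := by
    rw [Matrix.mul_assoc, e, ← Matrix.mul_assoc, ← Matrix.mul_assoc, a.2.1.src, Matrix.one_mul]
  rw [← l.2]
  simpa [Matrix.mul_apply, sc] using (Matrix.ext_iff.2 e' () ()).symm

theorem og_lg (h : Og I D p s g x) (h' : Og I D p s' g' x)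
    (e : ∀ᶠ y in 𝓝 x, y ∈ D → ContinuousAt ψ y ∧ s' y = s y * sc (ex ψ) y) :
    LG D (fun y => g y * (g' y : ℂ)⁻¹) x := by
  obtain ⟨L, a⟩ := og_ratio h h'
  refine ⟨fun y => L y - ψ y * Complex.I, ?_⟩
  filter_upwards [a, e] with y a e d
  refine ⟨a.1.continuousAt.sub ((Complex.continuous_ofReal.continuousAt.comp (e d).1).mul_const _), ?_⟩
  have := a.2 d _ (e d).2
  rw [coe_ex] at this
  rw [Complex.exp_sub, eq_div_iff (Complex.exp_ne_zero _), mul_right_comm, this,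
    mul_inv_cancel_right₀ (Circle.coe_ne_zero _)]

theorem og_diff (hn : NSep D x) (h : Og I D p (fun y => s y * sc (ex ψ) y) g x)
    (h' : Og I D p (fun y => s y * sc (ex ψ') y) g x)
    (c : ∀ᶠ y in 𝓝 x, y ∈ D → ContinuousAt ψ y) (c' : ∀ᶠ y in 𝓝 x, y ∈ D → ContinuousAt ψ' y) :
    ∃ d : M → ℝ, ∀ᶠ y in 𝓝 x, FSm I d y ∧ (y ∈ D → ψ' y = ψ y + d y) := by
  obtain ⟨L, a⟩ := og_ratio h h'
  obtain ⟨W, w1, w2, w3, w4⟩ := hn _ (a.and (c.and c'))
  rcases (W ∩ D).eq_empty_or_nonempty with e | ⟨y₀, h₀⟩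
  · exact ⟨0, eventually_of_mem (w1.mem_nhds w2) fun y b =>
      ⟨contMDiffAt_const, fun d => (eq_empty_iff_forall_notMem.1 e y ⟨b, d⟩).elim⟩⟩
  let F : M → ℂ := fun y => (ψ' - ψ) y * Complex.I - L y
  refine ⟨fun y => (L y + F y₀).im, eventually_of_mem (w1.mem_nhds w2) fun y b =>
    ⟨fsm_im ((w3 b).1.1.add contMDiffAt_const), fun d => ?_⟩⟩
  rw [← const_of_exp_eq_one (ψ := F) w4 (fun z e => (((Complex.continuous_ofReal.continuousAt.comp
    (((w3 e.1).2.2 e.2).sub ((w3 e.1).2.1 e.2))).mul_const _).sub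
      (w3 e.1).1.1.continuousAt).continuousWithinAt) (fun z e => ?_) ⟨b, d⟩ h₀]
  · simp [F]
  · have := (w3 e.1).1.2 e.2 (ex (ψ' - ψ)) (by
      rw [Matrix.mul_assoc, ← sc_ex_add (φ := ψ') (by simp)])
    rw [mul_comm, mul_left_inj' (Circle.coe_ne_zero _), coe_ex] at this
    rw [Complex.exp_sub, this, div_self (Complex.exp_ne_zero _)]

theorem og_add (h : Og I D p (fun y => s y * sc (ex ψ) y) g x) {d : M → ℝ}
    (hd : ∀ᶠ y in 𝓝 x, FSm I d y ∧ (y ∈ D → φ y = ψ y + d y)) :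
    Og I D p (fun y => s y * sc (ex φ) y) g x :=
  ((h.mul (ex d)).change (k := ex d) (hd.mono fun _ a => ⟨csm_ex a.1, fun _ => mul_comm _ _⟩)).congr
    EventuallyEq.rfl (hd.mono fun _ a b => ⟨b, by rw [sc_ex_add (a.2 b), Matrix.mul_assoc], rfl⟩)

theorem fsm_of_og (hD : D ∈ 𝓝 x) (h : Og I D p s 1 x) (h' : Og I D p (fun y => s y * sc (ex ψ) y) g x)
    (hg : CSm I g x) (c : ContinuousAt ψ x) : FSm I ψ x := by
  obtain ⟨L, a⟩ := og_ratio h h'
  refine fsm_of_exp c (k := fun y => exp (L y) * g y) (FSm.mul' (((Complex.contDiff_exp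
    (𝕜 := ℝ)).contDiffAt).comp_contMDiffAt a.self_of_nhds.1) ((contMDiff_coe _).comp x hg)) ?_
  filter_upwards [a, hD] with y b d
  rw [← b.2 d _ rfl, coe_ex]
  simp

theorem og_of_lg (hS : ∀ᶠ y in 𝓝 x, MSm I S y ∧ PIso (S y) 1 (p y))
    (hs : ∀ᶠ y in 𝓝 x, y ∈ D → PIso (s y) 1 (p y))
    (h : LG D (fun y => ((S y)ᴴ * s y) () () * (g y : ℂ)⁻¹) x) :
    ∃ ψ : M → ℝ, (∀ᶠ y in 𝓝 x, y ∈ D → ContinuousAt ψ y) ∧
      Og I D p (fun y => s y * sc (ex ψ) y) g x := by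
  obtain ⟨L, a⟩ := h
  refine ⟨fun y => -(L y).im, a.mono fun y b d =>
    (Complex.continuous_im.continuousAt.comp (b d).1).neg, S, ?_⟩
  filter_upwards [a, hS, hs] with y b c e
  refine ⟨c.1, c.2, fun d => ?_⟩
  have h1 : ‖exp (L y)‖ = 1 := by
    rw [← (b d).2, norm_mul, norm_ent ((e d).trans c.2.symm), norm_inv, Circle.norm_coe]; simp
  have h2 : ((S y)ᴴ * s y) * sc (ex fun y => -(L y).im) y = sc g y := by
    ext i j
    have := (b d).2
    rw [mul_inv_eq_iff_eq_mul₀ (Circle.coe_ne_zero _), ← exp_im h1] at this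
    rw [Matrix.mul_apply, Finset.univ_unique, Finset.sum_singleton, show ((S y)ᴴ * s y) i default = _
      from this]
    simp only [sc, of_apply, coe_ex]
    rw [mul_right_comm, ← Complex.exp_add]
    simp
  rw [← h2, ← Matrix.mul_assoc, ← Matrix.mul_assoc, c.2.tgt, (e d).left]

/-- gluing of functions on `D` which differ by smooth functions -/
theorem exists_glue_log [T2Space M] [SecondCountableTopology M] (hD : IsOpen D) (hO : IsOpen O)
    {f : M → M → ℝ} (h : ∀ x ∈ O, x ∉ D → ∀ᶠ y in 𝓝 x, (y ∈ D → FSm I (f x) y) ∧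
      (y ∉ D → ∃ d : M → ℝ, ∀ᶠ z in 𝓝 y, FSm I d z ∧ (z ∈ D → f x z = f y z + d z))) :
    ∃ φ : M → ℝ, (∀ y ∈ O, y ∈ D → FSm I φ y) ∧ ∀ x ∈ O, x ∉ D →
      ∃ d : M → ℝ, ∀ᶠ z in 𝓝 x, FSm I d z ∧ (z ∈ D → φ z = f x z + d z) := by
  classical
  choose! V h1 h2 h3 using fun x hx k => eventually_nhds_iff.1 (h x hx k)
  let U : M → Set M := fun i => if i ∈ O ∧ i ∉ D then V i else D
  let f' : M → M → ℝ := fun i => if i ∈ O ∧ i ∉ D then f i else 0
  have hU : ∀ i, IsOpen (U i) := fun i => by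
    simp only [U]
    split_ifs with k
    exacts [h2 i k.1 k.2, hD]
  obtain ⟨χ, hχ, -⟩ := Pat85.exists_pou_open (I := I) hO hU fun x hx => ⟨x, by
    simp only [U]
    split_ifs with k
    exacts [h3 x k.1 k.2, not_not.1 fun e => k ⟨hx, e⟩]⟩
  refine ⟨fun y => ∑ᶠ i, χ i y • f' i y, fun x hx k => ?_, fun x hx k => ?_⟩ <;>
    obtain ⟨t, W, w1, w2, w3, w4, w5, w6⟩ := hχ.nbhd (𝔸 := ℝ) hU hO hx
  · refine (FSm.sum' (s := t) (f := fun i y => χ i y • f' i y) fun i hi =>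
      (hχ.sm i x hx).smul ?_).congr_of_eventuallyEq
        (eventually_of_mem (w1.mem_nhds w2) fun y hy => w5 y hy _)
    have := w4 i hi w2
    simp only [U, f'] at this ⊢
    split_ifs at this ⊢ with e
    exacts [(h1 i e.1 e.2 x this).1 k, contMDiffAt_const]
  · have : ∀ i ∈ t, ∃ d : M → ℝ, ∀ᶠ z in 𝓝 x, FSm I d z ∧ (z ∈ D → f' i z = f x z + d z) :=
      fun i hi => by
        have := w4 i hi w2
        simp only [U, f'] at this ⊢
        split_ifs at this ⊢ with e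
        exacts [(h1 i e.1 e.2 x this).2 k, absurd this k]
    choose! d hd using this
    refine ⟨fun y => ∑ i ∈ t, χ i y • d i y, ?_⟩
    filter_upwards [w1.mem_nhds w2, t.eventually_all.2 hd] with y a b
    refine ⟨FSm.sum' fun i hi => (hχ.sm i y (w3 a)).smul (b i hi).1, fun e => ?_⟩
    rw [w5 y a, ← one_smul ℝ (f x y), ← w6 y a, Finset.sum_smul, ← Finset.sum_add_distrib]
    exact Finset.sum_congr rfl fun i hi => by rw [(b i hi).2 e, smul_add]

end Crest.Agent.X212.Cls19
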