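import Crest.Agent.X212.Cls19.Log

/-!
# X212 / Cls19, part Main (helper19): every line on a rod manifold is toric, the orders are unique

* `nsep_off` (L1), `exists_chi`, `chi_unique` (P1), `dot_of_lg`, `exists_lo`;
* `Sat T v O` : `O` contains the axis circles it meets;  `exists_tl`, `exists_tl_wd`, `exists_tl_time` (CLASS);
* `tl_unique`, `tl_unique_wd`, `tl_unique_univ` (UNIQ), `tl_chg`, `tl_chg_ang`, `tl_chg_wd` (CHG), `tl_vch`.
-/

set_option autoImplicit false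
set_option linter.unusedSectionVars false

open Set Filter Topology Function Matrix Metric
open scoped ContDiff Manifold
open Crest.Agent.R208 Crest.Agent.R208.F Crest.Agent.R208.FI Crest.Agent.X212.Dr59
  Crest.Agent.X212.Pj41 Crest.Agent.X212.Line51 Crest.Agent.X212.Pic56
open Crest.Agent.X212.Rod53 hiding Uni X
open Crest.Agent.X212.Glue52 (dir)
open Crest.Agent.X212.Hz56 (NSep)
open Complex (exp log)

noncomputable section

namespace Crest.Agent.X212.Cls19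

/-- the axis in a vertex chart -/
def ax (c : ℝ) (q : ℝ × Circle) : ℂ × ℂ := ((√(q.1 - c) : ℝ) * q.2, (√(c - q.1) : ℝ) * q.2)

theorem continuous_ax (c : ℝ) : Continuous (ax c) := by unfold ax; fun_prop

theorem tm_ax (c : ℝ) (q : ℝ × Circle) : tm c (ax c q) = q.1 := by
  simp only [tm, ax, norm_mul, Circle.norm_coe, mul_one, Complex.norm_real, Real.norm_eq_abs, sq_abs,
    Real.sq_sqrt']
  rcases le_total q.1 c with h | h
  · rw [max_eq_right (sub_nonpos.2 h), max_eq_left (sub_nonneg.2 h)]; ring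
  · rw [max_eq_left (sub_nonneg.2 h), max_eq_right (sub_nonpos.2 h)]; ring

theorem ax_not (c : ℝ) (q : ℝ × Circle) : ax c q ∉ D2 := fun h => by
  rcases le_total q.1 c with k | k
  · exact h.1 (by simp [ax, Real.sqrt_eq_zero_of_nonpos (sub_nonpos.2 k)])
  · exact h.2 (by simp [ax, Real.sqrt_eq_zero_of_nonpos (sub_nonpos.2 k)])

theorem ax_eq (c : ℝ) {z : ℂ × ℂ} (h : z ∉ D2) : ax c (tm c z, dir (z.1 + z.2)) = z := by
  have e : ∀ w : ℂ, √(-‖w‖ ^ 2) = 0 := fun w =>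
    Real.sqrt_eq_zero_of_nonpos (neg_nonpos.2 (sq_nonneg _))
  rcases not_and_or.1 h with k | k <;> rw [not_not] at k <;>
    exact Prod.ext (by simp [ax, tm, k, e, Glue52.norm_mul_dir]) (by simp [ax, tm, k, e, Glue52.norm_mul_dir])

variable {EN HN : Type} [NormedAddCommGroup EN] [NormedSpace ℝ EN] [FiniteDimensional ℝ EN]
  [TopologicalSpace HN] {IN : ModelWithCorners ℝ EN HN} [IN.Boundaryless]
  {N : Type} [TopologicalSpace N] [ChartedSpace HN N] [IsManifold IN ∞ N] [T2Space N]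
  {T : Tb IN N} {v : ℝ → Z2} {κ : Type*} [Fintype κ] {m m' : ℝ → ℤ} {a b η η' : Z2} {c t : ℝ}
  {O : Set (Rod53.X T v)} {x y : Rod53.X T v} {p : Rod53.X T v → Matrix κ κ ℂ}
  {s s' : Rod53.X T v → Matrix κ Unit ℂ} {ψ : Rod53.X T v → ℝ}

theorem off_eq : Hz56.off T v = off T v := Set.ext fun _ =>
  ⟨by rintro ⟨q, hq, rfl⟩; exact ext_mem_off hq.1, fun h =>
    let ⟨q, hq, e⟩ := exists_ext_of_off h; ⟨q, ⟨hq, mem_univ _⟩, e⟩⟩

/-- **(L1)** the axis does not separate locally -/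
theorem nsep_off (h : x ∉ off T v) : NSep (off T v) x := off_eq (T := T) (v := v) ▸
  Hz56.nsep_off T x (off_eq (T := T) (v := v) ▸ h)

theorem exists_Jv (h : x ∉ off T v) : ∃ a b c, Rod53.Uni a b ∧ T.time v x ∈ Jv v a b c :=
  ((T.ext_or_axis x).resolve_left fun ⟨_, k, e⟩ => h (e ▸ ext_mem_off k)).2.2.2

theorem ax_mem {u : Circle} (h : t ∈ Jv v a b c) : ax c (t, u) ∈ Uv v a b c :=
  Or.inr ((tm_ax c (t, u)).symm ▸ h)

theorem time_ax (hu : Rod53.Uni a b) {u : Circle} (h : t ∈ Jv v a b c) :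
    T.time v (T.vtx v hu c (ax c (t, u))) = t := (T.time_vtx hu (ax_mem h)).trans (tm_ax _ _)

theorem ax_not_off (hu : Rod53.Uni a b) {u : Circle} (h : t ∈ Jv v a b c) :
    T.vtx v hu c (ax c (t, u)) ∉ off T v := fun k => ax_not c _ ((vtx_mem_off hu (ax_mem h)).1 k)

theorem exists_ax (hu : Rod53.Uni a b) (h : x ∉ off T v) (h' : T.time v x ∈ Jv v a b c) :
    ∃ u, T.vtx v hu c (ax c (T.time v x, u)) = x := by
  obtain ⟨z, hz, rfl⟩ := T.mem_vtx hu (tor_of_not_off h) (Or.inr h')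
  exact ⟨_, by rw [T.time_vtx hu hz, ax_eq c (mt (vtx_mem_off hu hz).2 h)]⟩

theorem cont_ax (hu : Rod53.Uni a b) {u : Circle} (h : t ∈ Jv v a b c) :
    ContinuousAt (fun q => T.vtx v hu c (ax c q)) (t, u) :=
  ((T.vtx v hu c).toOpenPartialHomeomorph.continuousAt (ax_mem h)).comp (continuous_ax c).continuousAt

/-- time is open on the axis -/
theorem ev_axis (h : x ∉ off T v) {P : Rod53.X T v → Prop} (hP : ∀ᶠ y in 𝓝 x, P y) :
    ∀ᶠ t in 𝓝 (T.time v x), ∃ y, y ∉ off T v ∧ T.time v y = t ∧ P y := by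
  obtain ⟨a, b, c, hu, k⟩ := exists_Jv h
  obtain ⟨u, e⟩ := exists_ax hu h k
  rw [← e] at hP
  filter_upwards [((cont_ax hu k).comp (f := fun t => (t, u)) (by fun_prop)).eventually hP,
    isOpen_interior.mem_nhds k] with t h1 h2
  exact ⟨_, ax_not_off hu h2, time_ax hu h2, h1⟩

theorem lg_vtx (hu : Rod53.Uni a b) {z : ℂ × ℂ} (hz : z ∈ Uv v a b c) {φ : Rod53.X T v → ℂ} :
    LG (off T v) φ (T.vtx v hu c z) ↔ LG D2 (fun w => φ (T.vtx v hu c w)) z :=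
  lg_chart (T.vtx v hu c).toOpenPartialHomeomorph hz fun _ => vtx_mem_off hu

theorem coe_chi_vtx (hu : Rod53.Uni a b) {z : ℂ × ℂ} (h : z ∈ D2) :
    (chi T v η (T.vtx v hu c z) : ℂ) = (dir z.1 : ℂ) ^ dot η a * (dir z.2 : ℂ) ^ dot η b := by
  rw [chi_vtx hu h.1 h.2, Circle.coe_mul, Circle.coe_zpow, Circle.coe_zpow]

/-- a character with a logarithm near an axis point kills the slopes -/
theorem dot_of_lg (hx : x ∉ off T v) (h : LG (off T v) (fun y => chi T v η y) x) :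
    ∀ᶠ t in 𝓝 (T.time v x), dot η (v t) = 0 := by
  obtain ⟨a, b, c, hu, k⟩ := exists_Jv hx
  obtain ⟨z, hz, rfl⟩ := T.mem_vtx hu (tor_of_not_off hx) (Or.inr k)
  obtain ⟨h1, h2⟩ := ord_unique (((lg_vtx hu hz).1 h).congr
    (Eventually.of_forall fun w e => (coe_chi_vtx hu e).symm))
  rw [vtx_mem_off hu hz, not_and_or, not_not, not_not] at hx
  rw [T.time_vtx hu hz] at k ⊢
  have e1 : ∀ᶠ t in 𝓝 (tm c z), t < c → z.1 = 0 := (Classical.em (z.1 = 0)).elim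
    (fun e => Eventually.of_forall fun _ _ => e) fun e => by
      refine eventually_of_mem (Ioi_mem_nhds (a := c) ?_) fun t a b => absurd b (not_lt.2 (le_of_lt a))
      simpa [tm, hx.resolve_left e] using pow_pos (norm_pos_iff.2 e) 2
  have e2 : ∀ᶠ t in 𝓝 (tm c z), c < t → z.2 = 0 := (Classical.em (z.2 = 0)).elim
    (fun e => Eventually.of_forall fun _ _ => e) fun e => by
      refine eventually_of_mem (Iio_mem_nhds (a := c) ?_) fun t a b => absurd b (not_lt.2 (le_of_lt a))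
      simpa [tm, hx.resolve_right e] using pow_pos (norm_pos_iff.2 e) 2
  filter_upwards [mem_Jv.1 k, e1, e2] with t a1 a2 a3
  rcases lt_trichotomy t c with e | e | e
  exacts [(dot_pm (a1.1 e)).2 (h1 (a2 e)), by rw [a1.2.1 e, dot_zero], (dot_pm (a1.2.2 e)).2 (h2 (a3 e))]

/-- every function is a character times an exponential near an axis point -/
theorem exists_lg (hx : x ∉ off T v) {φ : Rod53.X T v → ℂ}
    (h : ∀ᶠ y in 𝓝 x, y ∈ off T v → ContinuousAt φ y ∧ φ y ≠ 0) :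
    ∃ η, LG (off T v) (fun y => φ y * (chi T v η y : ℂ)⁻¹) x := by
  obtain ⟨a, b, c, hu, k⟩ := exists_Jv hx
  obtain ⟨z, hz, rfl⟩ := T.mem_vtx hu (tor_of_not_off hx) (Or.inr k)
  obtain ⟨j, j', e⟩ := exists_ord (φ := fun w => φ (T.vtx v hu c w)) (z₀ := z) (by
    filter_upwards [((T.vtx v hu c).toOpenPartialHomeomorph.continuousAt hz).eventually h,
      isOpen_Uv.mem_nhds hz] with w h1 h2 h3
    have := h1 ((vtx_mem_off hu h2).2 h3)
    exact ⟨this.1.comp ((T.vtx v hu c).toOpenPartialHomeomorph.continuousAt h2), this.2⟩)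
  exact ⟨dual a b j j', (lg_vtx hu hz).2 (e.congr (Eventually.of_forall fun w e => by
    rw [coe_chi_vtx hu e, dual_left hu, dual_right hu]))⟩

theorem ord_dot (hx : x ∉ off T v) (h : Ord T v p s η x) (h' : Ord T v p s' η' x)
    (e : ∀ᶠ y in 𝓝 x, y ∈ off T v → ContinuousAt ψ y ∧ s' y = s y * sc (ex ψ) y) :
    ∀ᶠ t in 𝓝 (T.time v x), dot (η - η') (v t) = 0 :=
  dot_of_lg hx ((og_lg (I := 𝓡 4) h h' e).congr (Eventually.of_forall fun y k => by
    rw [sub_eq_add_neg, chi_add k, chi_neg k, Circle.coe_mul, Circle.coe_inv]))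

variable (T v) in
/-- `η` is an order of `s` at `x` up to an exponential -/
def LO (p : Rod53.X T v → Matrix κ κ ℂ) (s : Rod53.X T v → Matrix κ Unit ℂ) (η : Z2)
    (ψ : Rod53.X T v → ℝ) (x : Rod53.X T v) : Prop :=
  (∀ᶠ y in 𝓝 x, y ∈ off T v → ContinuousAt ψ y) ∧ Ord T v p (fun y => s y * sc (ex ψ) y) η x

theorem LO.ev (h : LO T v p s η ψ x) : ∀ᶠ y in 𝓝 x, LO T v p s η ψ y :=
  h.1.eventually_nhds.and (Og.ev (I := 𝓡 4) h.2)

theorem LO.dot {ψ' : Rod53.X T v → ℝ} (hx : x ∉ off T v) (h : LO T v p s η ψ x)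
    (h' : LO T v p s η' ψ' x) : ∀ᶠ t in 𝓝 (T.time v x), dot (η - η') (v t) = 0 :=
  ord_dot (ψ := ψ' - ψ) hx h.2 h'.2 ((h.1.and h'.1).mono fun y a k => ⟨(a.2 k).sub (a.1 k), by
    rw [Matrix.mul_assoc, ← sc_ex_add (φ := ψ') (by simp)]⟩)

theorem exists_lo (hO : IsOpen O) (hp : ∀ x ∈ O, MSm (𝓡 4) p x ∧ Prj (p x) ∧ (p x).trace = 1)
    (hs : Uni (𝓡 4) (fun _ => 1) p s (O ∩ off T v)) (hx : x ∈ O) (k : x ∉ off T v) :
    ∃ η ψ, LO T v p s η ψ x := by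
  classical
  obtain ⟨a₀, h₀⟩ := exists_unit (hp x hx).2.1 (hp x hx).2.2
  obtain ⟨V, S, h1, h2, h3, -, h4⟩ := exists_iso_near (I := 𝓡 4) (p := fun _ => 1) hO
    (fun _ _ => ⟨MSm.const _, Prj.one⟩) (fun y hy => ⟨(hp y hy).1, (hp y hy).2.1⟩) hx h₀
  obtain ⟨η, e⟩ := exists_lg k (φ := fun y => ((S y)ᴴ * s y) () ())
    (eventually_of_mem (h1.mem_nhds h2) fun y a b =>
      ⟨(((h4 y a).1.ct.mul (hs.sm y ⟨h3 a, b⟩)) _ _).continuousAt, norm_ne_zero_iff.1 (by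
        rw [norm_ent ((hs.iso y ⟨h3 a, b⟩).trans (h4 y a).2.symm)]; exact one_ne_zero)⟩)
  exact ⟨η, og_of_lg (I := 𝓡 4) (eventually_of_mem (h1.mem_nhds h2) h4)
    (eventually_of_mem (hO.mem_nhds hx) fun y a b => hs.iso y ⟨a, b⟩) e⟩

variable (T v) in
/-- `O` contains the axis circles it meets -/
def Sat (O : Set (Rod53.X T v)) : Prop :=
  ∀ x ∈ O, x ∉ off T v → ∀ y, y ∉ off T v → T.time v y = T.time v x → y ∈ O

theorem sat_univ : Sat T v univ := fun _ _ _ _ _ _ => mem_univ _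

theorem sat_time (J : Set ℝ) : Sat T v (T.time v ⁻¹' J) := fun _ h _ _ _ e => by
  rwa [mem_preimage, e]

theorem exists_rep (hO : IsOpen O) (hS : Sat T v O) {η : Rod53.X T v → Z2}
    (h : ∀ x ∈ O, x ∉ off T v → ∀ᶠ y in 𝓝 x, y ∉ off T v →
      dot (η x - η y) (v (T.time v y)) = 0) :
    ∃ m, ∀ x ∈ O, x ∉ off T v → Rep v m (η x) (T.time v x) := by
  classical
  have key : ∀ x ∈ O, x ∉ off T v → ∀ y, y ∉ off T v → T.time v y = T.time v x →
      dot (η y) (v (T.time v x)) = dot (η x) (v (T.time v x)) := fun x hx k y k' e => by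
    obtain ⟨a, b, c, hu, j⟩ := exists_Jv k
    obtain ⟨u, e1⟩ := exists_ax hu k j
    obtain ⟨u', e2⟩ := exists_ax hu k' (e ▸ j)
    rw [e] at e2
    have := ((IsLocallyConstant.iff_eventually_eq (fun w : Circle =>
      dot (η (T.vtx v hu c (ax c (T.time v x, w)))) (v (T.time v x)))).2 fun w => by
        filter_upwards [((cont_ax hu j).comp (f := fun w => (T.time v x, w)) (by fun_prop)).eventually
          (h _ (hS x hx k _ (ax_not_off hu j) (time_ax hu j)) (ax_not_off hu j))] with w' a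
        have := a (ax_not_off hu j)
        simp only [Function.comp_apply, time_ax hu j, dot_sub] at this
        omega).apply_eq_of_preconnectedSpace u' u
    rwa [e1, e2] at this
  refine ⟨fun t => if k : ∃ y ∈ O, y ∉ off T v ∧ T.time v y = t then dot (η k.choose) (v t) else 0,
    fun x hx k => ?_⟩
  filter_upwards [ev_axis k ((h x hx k).and (hO.mem_nhds hx))]
  rintro _ ⟨y, y1, rfl, y2, y3⟩
  have e : ∃ z ∈ O, z ∉ off T v ∧ T.time v z = T.time v y := ⟨y, y3, y1, rfl⟩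
  have := y2 y1
  rw [dif_pos e, key y y3 y1 _ e.choose_spec.2.1 e.choose_spec.2.2]
  rw [dot_sub] at this
  omega

/-- **CLASS** : every line with a unit section off the axis is toric -/
theorem exists_tl [SecondCountableTopology (Rod53.X T v)] (hO : IsOpen O) (hS : Sat T v O)
    (hp : ∀ x ∈ O, MSm (𝓡 4) p x ∧ Prj (p x) ∧ (p x).trace = 1)
    (hs : Uni (𝓡 4) (fun _ => 1) p s (O ∩ off T v)) :
    ∃ (m : ℝ → ℤ) (ψ : Rod53.X T v → ℝ), (∀ y ∈ O, y ∈ off T v → FSm (𝓡 4) ψ y) ∧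
      TL T v m p (fun y => s y * sc (ex ψ) y) O := by
  choose! η f h using fun x hx k => exists_lo (x := x) hO hp hs hx k
  have h1 : ∀ x ∈ O, x ∉ off T v → ∀ᶠ y in 𝓝 x, y ∈ O ∧ y ∈ T.tor v ∧ LO T v p s (η x) (f x) y :=
    fun x hx k => (hO.eventually_mem hx).and
      ((T.isOpen_tor.eventually_mem (tor_of_not_off k)).and (h x hx k).ev)
  obtain ⟨m, hm⟩ := exists_rep hO hS (η := η) fun x hx k =>
    (h1 x hx k).mono fun y a b => (a.2.2.dot b (h y a.1 b)).self_of_nhds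
  obtain ⟨φ, k1, k2⟩ := exists_glue_log (I := 𝓡 4) isOpen_off hO (f := f) fun x hx k =>
    (h1 x hx k).mono fun y a => ⟨fun b => fsm_of_og ((hO.inter isOpen_off).mem_nhds ⟨a.1, b⟩)
      (Og.of_fr (hO.inter isOpen_off) hs ⟨a.1, b⟩) (Og.congr a.2.2.2 EventuallyEq.rfl
        (Eventually.of_forall fun _ e => ⟨e.2, rfl, rfl⟩)) (csm_off a.2.1 b) (a.2.2.1.self_of_nhds b),
      fun b => og_diff (nsep_off b) (h y a.1 b).2 (a.2.2.2.change
        (ev_csm a.2.1 fun _ => a.2.2.dot b (h y a.1 b))) (h y a.1 b).1 a.2.2.1⟩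
  exact ⟨m, φ, k1, ⟨fun y hy => (hs.sm y hy).mul (msm_sc (csm_ex (k1 y hy.1 hy.2))),
    fun y hy => piso_mul_sc (hs.iso y hy) _ _⟩, fun x hx k =>
      let ⟨_, e⟩ := k2 x hx k; ⟨η x, hm x hx k, og_add (I := 𝓡 4) (h x hx k).2 e⟩⟩

/-- **UNIQ** : the orders are unique -/
theorem tl_unique (h : TL T v m p s O) (h' : TL T v m' p s' O) (hx : x ∈ O) (k : x ∉ off T v)
    (e : ∀ᶠ y in 𝓝 x, y ∈ off T v → ContinuousAt ψ y ∧ s' y = s y * sc (ex ψ) y) :
    m =ᶠ[𝓝 (T.time v x)] m' := by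
  obtain ⟨η, a, b⟩ := h.ax x hx k
  obtain ⟨η', a', b'⟩ := h'.ax x hx k
  filter_upwards [ord_dot k b b' e, a, a'] with t e1 e2 e3
  rw [dot_sub] at e1
  omega

theorem tl_unique' (hO : IsOpen O) (h : TL T v m p s O) (h' : TL T v m' p s' O)
    (c : ContinuousOn ψ (O ∩ off T v)) (e : ∀ y ∈ O, y ∈ off T v → s' y = s y * sc (ex ψ) y)
    (hx : x ∈ O) (k : x ∉ off T v) : m =ᶠ[𝓝 (T.time v x)] m' :=
  tl_unique h h' hx k (eventually_of_mem (hO.mem_nhds hx) fun y a b =>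
    ⟨c.continuousAt ((hO.inter isOpen_off).mem_nhds ⟨a, b⟩), e y a b⟩)

/-- **CHG** : the change of the orders under a change of the section -/
theorem tl_chg (h : TL T v m p s O) (h' : TL T v m' p s' O) (hx : x ∈ O) (k : x ∉ off T v)
    (e : ∀ᶠ y in 𝓝 x, y ∈ off T v →
      ContinuousAt ψ y ∧ s' y = s y * sc (chi T v η) y * sc (ex ψ) y) :
    m' =ᶠ[𝓝 (T.time v x)] fun t => m t + dot η (v t) :=
  (tl_unique ((h.mono inter_subset_left).mul (tl_chi inter_subset_right fun _ _ _ => rep_dot η _))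
    (h'.mono inter_subset_left) ⟨hx, tor_of_not_off k⟩ k e).symm

theorem tl_chg_ang {θ : N → Circle} {δ : Z2} (hθ : Ang T θ δ) (j : ℤ) (h : TL T v m p s O)
    (h' : TL T v m' p s' O) (hx : x ∈ O) (k : x ∉ off T v) (e : ∀ᶠ y in 𝓝 x, y ∈ off T v →
      ContinuousAt ψ y ∧ s' y = s y * sc (thx T v θ δ ^ j) y * sc (ex ψ) y) :
    m' =ᶠ[𝓝 (T.time v x)] fun t => m t + j * dot δ (v t) := by
  refine (tl_chg (η := j • δ) (ψ := ψ) h h' hx k ?_).trans (Eventually.of_forall fun t => by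
    simp [dot]; ring)
  filter_upwards [e, T.isOpen_tor.mem_nhds (tor_of_not_off k)] with y a b c
  refine ⟨(a c).1, (a c).2.trans ?_⟩
  rw [sc_eq (h := chi T v (j • δ)) (by rw [Pi.pow_apply, hθ.thx_eq b, chi_smul c])]

/-! ### the punctured tube -/

theorem mem_tube {J : Set ℝ} : x ∈ T.tor v ∩ off T v ∩ T.time v ⁻¹' J ↔
    ∃ w : (Circle × ℂ) × ℝ, (w.1.2 ≠ 0 ∧ w.2 ∈ J) ∧ T.rod v uni_std w = x := by
  constructor
  · rintro ⟨⟨h1, h2⟩, h3⟩
    obtain ⟨⟨q, t⟩, hq, rfl⟩ := exists_ext_of_off h2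
    obtain ⟨w, rfl⟩ := (T.ext_mem_tor (p := (q, t)) hq).1 h1
    exact ⟨(w, t), ⟨T.τ_mem.1 hq, by rwa [mem_preimage, T.time_ext hq] at h3⟩, by
      rw [T.rod_eq_ext _ (T.τ_mem.1 hq), gl_id]⟩
  · rintro ⟨w, ⟨h1, h2⟩, rfl⟩
    exact ⟨⟨T.rod_mem_tor _ (Or.inl h1), (rod_mem_off _ (Or.inl h1)).2 h1⟩, by
      rwa [mem_preimage, T.time_rod _ (Or.inl h1)]⟩

theorem coe_chi_std {w : (Circle × ℂ) × ℝ} (h : w.1.2 ≠ 0) :
    (chi T v η (T.rod v uni_std w) : ℂ) = (w.1.1 : ℂ) ^ η.1 * (dir w.1.2 : ℂ) ^ η.2 := by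
  rw [T.rod_eq_ext _ h, gl_id, chi_ext h, chT, Circle.coe_mul, Circle.coe_zpow, Circle.coe_zpow]

theorem cont_std {w : (Circle × ℂ) × ℝ} (h : w.1.2 ≠ 0) : ContinuousAt (T.rod v uni_std) w :=
  (T.rod v uni_std).toOpenPartialHomeomorph.continuousAt (Or.inl h)

/-- **(P1)** existence -/
theorem exists_chi {J : Set ℝ} (hJ : Convex ℝ J) {g : Rod53.X T v → ℂ}
    (hg : ContinuousOn g (T.tor v ∩ off T v ∩ T.time v ⁻¹' J))
    (h0 : ∀ y ∈ T.tor v ∩ off T v ∩ T.time v ⁻¹' J, g y ≠ 0) :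
    ∃ η, HasLog (fun y => g y * (chi T v η y : ℂ)⁻¹) (T.tor v ∩ off T v ∩ T.time v ⁻¹' J) := by
  rcases J.eq_empty_or_nonempty with rfl | ⟨t₀, ht⟩
  · exact ⟨0, 0, continuousOn_const, fun _ h => h.2.elim⟩
  set P : Set ((Circle × ℂ) × ℝ) := {w | w.1.2 ≠ 0 ∧ w.2 ∈ J}
  have hm : MapsTo (T.rod v uni_std) P (T.tor v ∩ off T v ∩ T.time v ⁻¹' J) :=
    fun w hw => mem_tube.2 ⟨w, hw, rfl⟩
  have hc : ContinuousOn (fun w => g (T.rod v uni_std w)) P :=
    hg.comp (fun w hw => (cont_std hw.1).continuousWithinAt) hm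
  have hr : ∀ u : Circle × Circle, ((u.1, (u.2 : ℂ)), t₀) ∈ P := fun u => ⟨u.2.coe_ne_zero, ht⟩
  obtain ⟨j, j', hj⟩ := exists_deg_torus (φ := fun u => g (T.rod v uni_std ((u.1, u.2), t₀)))
    (hc.comp_continuous (by fun_prop) hr) fun u => h0 _ (hm (hr u))
  have n : ∀ u u' : Circle, (u : ℂ) ^ j * (u' : ℂ) ^ j' ≠ 0 := fun u u' =>
    mul_ne_zero (zpow_ne_zero _ u.coe_ne_zero) (zpow_ne_zero _ u'.coe_ne_zero)
  have k := HasLog.of_deform (φ := fun w : ((Circle × ℂ) × ℝ) × Circle =>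
      g (T.rod v uni_std w.1) * ((w.1.1.1 : ℂ) ^ j * (w.2 : ℂ) ^ j')⁻¹)
    (S := {w | w.1 ∈ P ∧ w.2 = dir w.1.1.2}) (S' := P ×ˢ univ)
    (S₀ := {w | w.1 = ((w.1.1.1, (w.2 : ℂ)), t₀)})
    (h := fun q => (((q.2.1.1.1, (1 - q.1) • (q.2.2 : ℂ) + q.1 • q.2.1.1.2),
      (1 - q.1) • t₀ + q.1 • q.2.1.2), q.2.2))
    ((hc.comp continuousOn_fst fun _ a => a.1).mul
      ((((continuous_circle_zpow j).comp continuous_fst.fst.fst).mul ((continuous_circle_zpow j').comp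
        continuous_snd)).inv₀ fun w => n _ _).continuousOn)
    (fun w hw => mul_ne_zero (h0 _ (hm hw.1)) (inv_ne_zero (n _ _))) (by fun_prop)
    (fun t h w hw => by
      refine ⟨⟨?_, hJ ht hw.1.2 (sub_nonneg.2 h.2) h.1 (sub_add_cancel _ _)⟩, mem_univ _⟩
      have e : (1 - t) • (w.2 : ℂ) + t • w.1.1.2 = (((1 - t) + t * ‖w.1.1.2‖ : ℝ) : ℂ) * w.2 := by
        have := Glue52.norm_mul_dir w.1.1.2
        simp only [Complex.real_smul, hw.2]
        push_cast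
        linear_combination (-t : ℂ) * this
      refine e.trans_ne (mul_ne_zero (Complex.ofReal_ne_zero.2 (ne_of_gt ?_)) (Circle.coe_ne_zero _))
      have h1 := norm_pos_iff.2 hw.1.1
      rcases h.1.eq_or_lt with k | k
      · rw [← k]; linarith
      · have := mul_pos k h1
        linarith [h.2])
    (fun w _ => by simp) (fun w _ => by simp)
    ((hj.comp (g := fun w : ((Circle × ℂ) × ℝ) × Circle => (w.1.1.1, w.2)) (by fun_prop)
      (mapsTo_univ _ _)).congr fun w hw => by rw [← show w.1 = _ from hw])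
  have k' := k.comp (g := fun w => (w, dir w.1.2)) (T := P) (continuousOn_id.prodMk
    (Hz56.continuousOn_dir.comp (by fun_prop) fun _ a => a.1)) fun _ a => ⟨a, rfl⟩
  let e := (T.rod v (uni_std)).toOpenPartialHomeomorph
  have he : ∀ w ∈ P, e.symm (T.rod v uni_std w) = w := fun w hw => e.left_inv (Or.inl hw.1)
  refine ⟨(j, j'), (k'.comp (g := e.symm) (e.continuousOn_symm.mono fun y hy => ?_)
    fun y hy => ?_).congr fun y hy => ?_⟩ <;> obtain ⟨w, hw, rfl⟩ := mem_tube.1 hy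
  · exact e.map_source (Or.inl hw.1)
  · rwa [he w hw]
  · rw [he w hw, coe_chi_std hw.1]

/-- **(P1)** uniqueness -/
theorem chi_unique {J : Set ℝ} (ht : t ∈ J)
    (h : HasLog (fun y => (chi T v η y : ℂ)) (T.tor v ∩ off T v ∩ T.time v ⁻¹' J)) : η = 0 := by
  have k := deg_unique_torus (c := η.1) (d := η.2) ((h.comp (g := fun u : Circle × Circle =>
    T.rod v uni_std ((u.1, u.2), t)) (fun u _ => (ContinuousAt.comp (f := fun u : Circle × Circle =>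
      ((u.1, (u.2 : ℂ)), t)) (cont_std u.2.coe_ne_zero) (by fun_prop)).continuousWithinAt)
    fun u _ => mem_tube.2 ⟨_, ⟨u.2.coe_ne_zero, ht⟩, rfl⟩).congr fun u _ => by
      rw [coe_chi_std u.2.coe_ne_zero]
      have := Glue52.dir_mul one_pos u.2
      simp only [Complex.ofReal_one, one_mul] at this
      simp only [this])
  exact Prod.ext k.1 k.2

theorem chi_unique' {J : Set ℝ} (ht : t ∈ J) {g : Rod53.X T v → ℂ}
    (h : HasLog (fun y => g y * (chi T v η y : ℂ)⁻¹) (T.tor v ∩ off T v ∩ T.time v ⁻¹' J))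
    (h' : HasLog (fun y => g y * (chi T v η' y : ℂ)⁻¹) (T.tor v ∩ off T v ∩ T.time v ⁻¹' J)) :
    η = η' := by
  refine sub_eq_zero.1 (chi_unique ht ((h.inv.mul h').congr fun y hy => ?_))
  have := left_ne_zero_of_mul (h.ne_zero hy)
  rw [sub_eq_add_neg, chi_add hy.1.2, chi_neg hy.1.2, Circle.coe_mul, Circle.coe_inv]
  field_simp

/-! ### words -/

section wd

variable {w : ℤ → Z2} {n n' : ℤ → ℤ} {O : Set (Rod53.X T (wd w))}
  {p : Rod53.X T (wd w) → Matrix κ κ ℂ} {s s' : Rod53.X T (wd w) → Matrix κ Unit ℂ}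
  {ψ : Rod53.X T (wd w) → ℝ} {i : ℤ}

theorem exists_axis (h : Loc v) (t : ℝ) : ∃ y, y ∉ off T v ∧ T.time v y = t :=
  let ⟨_, _, _, hu, k⟩ := h t
  ⟨_, ax_not_off hu (u := 1) k, time_ax hu k⟩

theorem tl_wd (hO : IsOpen O) (h : TL T (wd w) m p s O)
    (hA : ∀ i : ℤ, IsPreconnected (T.time (wd w) '' (O \ off T (wd w)) ∩ Ioo (i : ℝ) (i + 1))) :
    ∃ n, TL T (wd w) (wm w n) p s O := by
  classical
  set A := T.time (wd w) '' (O \ off T (wd w))
  have h1 : ∀ t ∈ A, ∃ η, Rep (wd w) m η t := by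
    rintro _ ⟨x, hx, rfl⟩
    exact (h.ax x hx.1 hx.2).imp fun _ a => a.1
  have h2 : ∀ t ∈ A, A ∈ 𝓝 t := by
    rintro _ ⟨x, hx, rfl⟩
    exact (ev_axis hx.2 (hO.eventually_mem hx.1)).mono fun _ ⟨y, a, b, c⟩ => ⟨y, ⟨c, a⟩, b⟩
  have h3 : ∀ i : ℤ, ∀ t ∈ A ∩ Ioo (i : ℝ) (i + 1), ∀ t' ∈ A ∩ Ioo (i : ℝ) (i + 1), m t = m t' :=
    fun i t a t' b => (hA i).constant (fun u c => by
      obtain ⟨η, e⟩ := h1 u c.1
      refine (continuousAt_const (y := dot η (w i))).congr ?_ |>.continuousWithinAt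
      filter_upwards [e, isOpen_Ioo.mem_nhds c.2] with u' e1 e2
      rw [← e1, wd_of_mem e2]) a b
  let n : ℤ → ℤ := fun i => if k : (A ∩ Ioo (i : ℝ) (i + 1)).Nonempty then m k.some else 0
  have h4 : ∀ i : ℤ, ∀ t ∈ A ∩ Ioo (i : ℝ) (i + 1), n i = m t := fun i t a => by
    have k : (A ∩ Ioo (i : ℝ) (i + 1)).Nonempty := ⟨t, a⟩
    simp only [n, dif_pos k]
    exact h3 i _ k.some_mem t a
  refine ⟨n, h.congr_m fun x hx k => eventually_of_mem (h2 _ ⟨x, ⟨hx, k⟩, rfl⟩) fun t a => ?_⟩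
  obtain ⟨η, e⟩ := h1 t a
  obtain ⟨t', ⟨b1, b2⟩, b3⟩ := (((e.and (h2 t a)).filter_mono nhdsWithin_le_nhds).and
    (Ioo_mem_nhdsGT (Int.lt_floor_add_one t))).exists
  have b4 : t' ∈ Ioo (⌊t⌋ : ℝ) (⌊t⌋ + 1) := ⟨(Int.floor_le t).trans_lt b3.1, b3.2⟩
  rw [← e.self_of_nhds, wm, Rod53.wd]
  split_ifs
  · simp
  · rw [h4 _ t' ⟨b2, b4⟩, ← b1, wd_of_mem b4]

theorem img_time (h : Loc v) (J : Set ℝ) : T.time v '' (T.time v ⁻¹' J \ off T v) = J :=
  Subset.antisymm (by rintro _ ⟨x, hx, rfl⟩; exact hx.1) fun t ht =>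
    let ⟨y, a, b⟩ := exists_axis (T := T) h t; ⟨y, ⟨by rwa [mem_preimage, b], a⟩, b⟩

/-- **CLASS** on words -/
theorem exists_tl_wd [SecondCountableTopology (Rod53.X T (wd w))] (hO : IsOpen O)
    (hS : Sat T (wd w) O)
    (hA : ∀ i : ℤ, IsPreconnected (T.time (wd w) '' (O \ off T (wd w)) ∩ Ioo (i : ℝ) (i + 1)))
    (hp : ∀ x ∈ O, MSm (𝓡 4) p x ∧ Prj (p x) ∧ (p x).trace = 1)
    (hs : Uni (𝓡 4) (fun _ => 1) p s (O ∩ off T (wd w))) :
    ∃ (n : ℤ → ℤ) (ψ : Rod53.X T (wd w) → ℝ), (∀ y ∈ O, y ∈ off T (wd w) → FSm (𝓡 4) ψ y) ∧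
      TL T (wd w) (wm w n) p (fun y => s y * sc (ex ψ) y) O :=
  let ⟨_, ψ, a, b⟩ := exists_tl hO hS hp hs
  let ⟨n, c⟩ := tl_wd hO b hA
  ⟨n, ψ, a, c⟩

/-- **CLASS** on the part of a word over an interval of time -/
theorem exists_tl_time [SecondCountableTopology (Rod53.X T (wd w))] (hw : IsWd w) {J : Set ℝ}
    (hJ : IsOpen J) (hc : Convex ℝ J)
    (hp : ∀ x ∈ T.time (wd w) ⁻¹' J, MSm (𝓡 4) p x ∧ Prj (p x) ∧ (p x).trace = 1)
    (hs : Uni (𝓡 4) (fun _ => 1) p s (T.time (wd w) ⁻¹' J ∩ off T (wd w))) :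
    ∃ (n : ℤ → ℤ) (ψ : Rod53.X T (wd w) → ℝ),
      (∀ y ∈ T.time (wd w) ⁻¹' J, y ∈ off T (wd w) → FSm (𝓡 4) ψ y) ∧
      TL T (wd w) (wm w n) p (fun y => s y * sc (ex ψ) y) (T.time (wd w) ⁻¹' J) :=
  exists_tl_wd (hJ.preimage T.continuous_time) (sat_time J)
    (fun _ => by rw [img_time hw.loc]; exact (hc.inter (convex_Ioo _ _)).isPreconnected) hp hs

theorem exists_tl_univ [SecondCountableTopology (Rod53.X T (wd w))] (hw : IsWd w)
    (hp : ∀ x, MSm (𝓡 4) p x ∧ Prj (p x) ∧ (p x).trace = 1)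
    (hs : Uni (𝓡 4) (fun _ => 1) p s (off T (wd w))) :
    ∃ (n : ℤ → ℤ) (ψ : Rod53.X T (wd w) → ℝ), (∀ y ∈ off T (wd w), FSm (𝓡 4) ψ y) ∧
      TL T (wd w) (wm w n) p (fun y => s y * sc (ex ψ) y) univ :=
  let ⟨n, ψ, a, b⟩ := exists_tl_time hw isOpen_univ convex_univ (fun x _ => hp x)
    (hs.mono inter_subset_right)
  ⟨n, ψ, fun y => a y (mem_univ _), b⟩

/-- the orders satisfy the compatibility conditions of `exists_TL_wd` -/
theorem tl_vch (h : TL T (wd w) (wm w n) p s O) {x : Rod53.X T (wd w)} (hx : x ∈ O)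
    (k : x ∉ off T (wd w)) (e : T.time (wd w) x = i) :
    ∃ η, dot η (w (i - 1)) = n (i - 1) ∧ dot η (w i) = n i := by
  obtain ⟨η, a, -⟩ := h.ax x hx k
  rw [e] at a
  obtain ⟨t, b1, b2⟩ := ((a.filter_mono nhdsWithin_le_nhds).and
    (Ioo_mem_nhdsLT (show (i : ℝ) - 1 < i by linarith))).exists
  obtain ⟨t', c1, c2⟩ := ((a.filter_mono nhdsWithin_le_nhds).and
    (Ioo_mem_nhdsGT (lt_add_one (i : ℝ)))).exists
  exact ⟨η, by rw [← wd_left (a := w) b2, b1, wm_of_mem (i := i - 1) (by simpa using b2)], by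
    rw [← wd_of_mem (a := w) c2, c1, wm_of_mem c2]⟩

/-- **UNIQ** on words -/
theorem tl_unique_wd (h : TL T (wd w) (wm w n) p s O) (h' : TL T (wd w) (wm w n') p s' O)
    {x : Rod53.X T (wd w)} (hx : x ∈ O) (k : x ∉ off T (wd w))
    (hi : T.time (wd w) x ∈ Ioo (i : ℝ) (i + 1)) (e : ∀ᶠ y in 𝓝 x, y ∈ off T (wd w) →
      ContinuousAt ψ y ∧ s' y = s y * sc (ex ψ) y) : n i = n' i := by
  rw [← wm_of_mem (a := w) (n := n) hi, ← wm_of_mem (a := w) (n := n') hi]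
  exact (tl_unique h h' hx k e).self_of_nhds

/-- **CHG** on words -/
theorem tl_chg_wd (h : TL T (wd w) (wm w n) p s O) (h' : TL T (wd w) (wm w n') p s' O)
    {x : Rod53.X T (wd w)} (hx : x ∈ O) (k : x ∉ off T (wd w))
    (hi : T.time (wd w) x ∈ Ioo (i : ℝ) (i + 1)) (e : ∀ᶠ y in 𝓝 x, y ∈ off T (wd w) →
      ContinuousAt ψ y ∧ s' y = s y * sc (chi T (wd w) η) y * sc (ex ψ) y) :
    n' i = n i + dot η (w i) := by
  rw [← wm_of_mem (a := w) (n := n) hi, ← wm_of_mem (a := w) (n := n') hi, ← wd_of_mem (a := w) hi]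
  exact (tl_chg h h' hx k e).self_of_nhds

theorem tl_unique_univ (hw : IsWd w) (h : TL T (wd w) (wm w n) p s univ)
    (h' : TL T (wd w) (wm w n') p s' univ) (c : ContinuousOn ψ (off T (wd w)))
    (e : ∀ y ∈ off T (wd w), s' y = s y * sc (ex ψ) y) : n = n' := funext fun i =>
  let ⟨x, a, b⟩ := exists_axis (T := T) hw.loc (i + 1 / 2)
  tl_unique_wd h h' (mem_univ x) a (by rw [b]; constructor <;> linarith)
    (Eventually.of_forall fun y k => ⟨c.continuousAt (isOpen_off.mem_nhds k), e y k⟩)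

end wd

end Crest.Agent.X212.Cls19
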