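import Crest.Agent.X212.Cls19.Main
import Crest.Agent.X212.Tau19.TL
import Crest.Agent.X212.Lab56.Eqv

/-!
# X212 / Cls19, part Rfl (helper19): the twists `τ`, `r_E` reflect the labels of spin^c data

* `exists_sqrt_dfm`, `exists_iw_dfm` : extension of intertwiners along a deformation;
* `dfm_graph`, `dfm_disc` : the complement of the axis deforms out of a half disc;
* `lab_move`, `lab_tau`, `lab_tau_wd`.
-/

set_option autoImplicit false
set_option linter.unusedSectionVars false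

open Set Filter Topology Function Matrix Metric
open scoped ContDiff Manifold
open Crest.Agent.X212.Pj41 Crest.Agent.X212.Line51 Crest.Agent.X212.Pic56 Crest.Agent.X212.Met55
open Crest.Agent.X212.Rod53 hiding Uni X
open Crest.Agent.X212.Glue52 (dir)
open Crest.Agent.X212.Lab56 (Sc Iw Eqv Dfm kk kk_smul)
open Complex (exp log)

noncomputable section

namespace Crest.Agent.X212.Cls19

section gen

variable {E : Type} [NormedAddCommGroup E] [NormedSpace ℝ E] [FiniteDimensional ℝ E]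
  {H : Type} [TopologicalSpace H] {I : ModelWithCorners ℝ E H} [I.Boundaryless]
  {M : Type} [TopologicalSpace M] [ChartedSpace H M] [IsManifold I ∞ M]
  {ι ι' κ l : Type} [Fintype ι] [Fintype ι'] [Fintype κ] [Fintype l] [DecidableEq ι] [DecidableEq ι']
  [DecidableEq κ] [DecidableEq l] {O O₀ : Set M} {x : M} {c G : M → ℂ}

theorem fsm_of_sq (hc : ContinuousAt c x) (hG : FSm I G x) (e : ∀ᶠ y in 𝓝 x, c y ^ 2 = G y)
    (h0 : c x ≠ 0) : FSm I c x := by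
  have g0 : G x ≠ 0 := e.self_of_nhds ▸ pow_ne_zero 2 h0
  have g1 : G x * (G x)⁻¹ ∈ Complex.slitPlane := by simp [g0]
  have h1 : FSm I (fun y => c x * exp (log (G y * (G x)⁻¹) * 2⁻¹)) x :=
    FSm.mul' contMDiffAt_const (((Complex.contDiff_exp (𝕜 := ℝ)).contDiffAt).comp_contMDiffAt
      (FSm.mul' (fsm_log (FSm.mul' hG contMDiffAt_const) g1) contMDiffAt_const))
  refine h1.congr_of_eventuallyEq ?_
  filter_upwards [e, (hc.add h1.continuousAt).eventually_ne (y := 0) (by simp [g0, h0]),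
    (hG.continuousAt.mul_const (G x)⁻¹).eventually_ne (y := 0) (by simp [g0])] with y a b d
  refine (sq_eq_sq_iff_eq_or_eq_neg.1 ?_).resolve_right fun k => b (by rw [Pi.add_apply, k, neg_add_cancel])
  rw [a, mul_pow, e.self_of_nhds, ← Complex.exp_nat_mul, Nat.cast_ofNat, mul_comm (log _),
    mul_inv_cancel_left₀ two_ne_zero, Complex.exp_log d]
  field_simp

theorem exists_sqrt_dfm (k : Dfm O O₀) (hO : IsOpen O) (h0 : O₀ ⊆ O)
    (hG : ∀ x ∈ O, FSm I G x ∧ ‖G x‖ = 1) (hc : ContinuousOn c O₀) (e : ∀ x ∈ O₀, c x ^ 2 = G x) :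
    ∃ c' : M → ℂ, ∀ x ∈ O, FSm I c' x ∧ ‖c' x‖ = 1 ∧ c' x ^ 2 = G x := by
  obtain ⟨h, a1, a2, a3, a4⟩ := k
  have n : ∀ x ∈ O, G x ≠ 0 := fun x hx => norm_ne_zero_iff.1 ((hG x hx).2 ▸ one_ne_zero)
  have cG : ContinuousOn G O := fun x hx => (hG x hx).1.continuousAt.continuousWithinAt
  have c0 : ContinuousOn (fun x => h (0, x)) O :=
    a1.comp (by fun_prop) fun x hx => ⟨⟨le_rfl, zero_le_one⟩, hx⟩
  obtain ⟨L, b1, b2⟩ := (HasLog.of_deform (φ := fun z : M × M => G z.1 * (G z.2)⁻¹) (S' := O ×ˢ O)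
    (S := {z | z.1 ∈ O ∧ z.2 = h (0, z.1)}) (S₀ := {z | z.1 = z.2 ∧ z.2 ∈ O})
    (h := fun q => (h (q.1, q.2.1), q.2.2))
    ((cG.comp continuousOn_fst fun _ a => a.1).mul
      ((cG.comp continuousOn_snd fun _ a => a.2).inv₀ fun _ a => n _ a.2))
    (fun _ a => mul_ne_zero (n _ a.1) (inv_ne_zero (n _ a.2)))
    ((a1.comp (by fun_prop) fun _ a => ⟨a.1, a.2.1⟩).prodMk (by fun_prop))
    (fun t ht z hz => ⟨a2 t ht _ hz.1, hz.2 ▸ h0 (a3 _ hz.1)⟩)
    (fun z hz => ⟨hz.2.symm, show z.2 ∈ O from hz.2 ▸ h0 (a3 _ hz.1)⟩) (fun z hz => by rw [a4 _ hz.1])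
    ((HasLog.const one_ne_zero _).congr fun z hz => by rw [hz.1, mul_inv_cancel₀ (n _ hz.2)])).comp
      (g := fun x => (x, h (0, x))) (continuousOn_id.prodMk c0) fun _ a => ⟨a, rfl⟩
  have e' : ∀ x ∈ O, (c (h (0, x)) * exp (L x * 2⁻¹)) ^ 2 = G x := fun x hx => by
    rw [mul_pow, e _ (a3 x hx), ← Complex.exp_nat_mul, Nat.cast_ofNat, mul_comm (L x),
      mul_inv_cancel_left₀ two_ne_zero, ← b2 x hx]
    have := n _ (h0 (a3 x hx))
    field_simp
  refine ⟨fun x => c (h (0, x)) * exp (L x * 2⁻¹), fun x hx => ⟨fsm_of_sq (((hc.comp c0 a3).mul (b1.mul continuousOn_const).cexp).continuousAt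
    (hO.mem_nhds hx)) (hG x hx).1 (eventually_of_mem (hO.mem_nhds hx) e')
      fun k => n x hx (by rw [← e' x hx, k]; simp), ?_, e' x hx⟩⟩
  exact (pow_eq_one_iff_of_nonneg (norm_nonneg _) two_ne_zero).1 (by rw [← norm_pow, e' x hx, (hG x hx).2])

/-- **extension of an intertwiner with a prescribed section of the determinant line** -/
theorem exists_iw_dfm [T2Space M] [SigmaCompactSpace M] {d₀ : Sc I M ι κ} {d : Sc I M ι' l}
    (k : Dfm O O₀) (hO : IsOpen O) (h0 : O₀ ⊆ O) (h₀ : d₀.On O) (h : d.On O) {σ : M → Matrix l κ ℂ}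
    (hσ : Iw d₀ d σ O₀) {j : M → Matrix (κ × κ) Unit ℂ} (hj : Uni I (fun _ => 1) d₀.det j O)
    {t : M → Matrix (l × l) Unit ℂ} (ht : Uni I (fun _ => 1) d.det t O)
    (e : ∀ x ∈ O₀, kk σ x * j x = t x) : ∃ σ', Iw d₀ d σ' O ∧ ∀ x ∈ O, kk σ' x * j x = t x := by
  obtain ⟨w, hw⟩ := k.eqv hO h0 h₀ h ⟨σ, hσ⟩
  have h1 := hw.sec h₀ h hj
  have h2 := fun x hx => Lab56.piso_ratio (by simp) (h1.iso x hx) (ht.iso x hx)
  obtain ⟨c, hc⟩ := Iw.ratio (h₀.mono h0) (h.mono h0) (hw.mono h0) hσ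
  obtain ⟨c', h3⟩ := exists_sqrt_dfm (I := I) (G := fun x => ((kk w x * j x)ᴴ * t x).trace) (c := c) k hO h0
    (fun x hx => ⟨((h1.sm x hx).ct.mul (ht.sm x hx)).trace, (h2 x hx).2⟩)
    (fun x hx => (hc x hx).1.continuousAt.continuousWithinAt) fun x hx =>
      Lab56.smul_cancel (by simp) (h1.iso x (h0 hx)) (by
        rw [← (h2 x (h0 hx)).1, ← e x hx, ← Matrix.smul_mul, ← kk_smul, kk, kk, (hc x hx).2.2])
  exact ⟨_, hw.smul' (fun x hx => (h3 x hx).1) fun x hx => (h3 x hx).2.1, fun x hx => by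
    rw [kk_smul, Matrix.smul_mul, (h3 x hx).2.2, ← (h2 x hx).1]⟩

theorem iw_pull_id {d₀ : Sc I M ι κ} {d : Sc I M ι' l} {σ : M → Matrix l κ ℂ} {f : M → M}
    (h : Iw d₀ d σ O) (hf : ∀ x ∈ O, f =ᶠ[𝓝 x] id) : Iw d₀ (d.pull I f) σ O :=
  h.of_eq (fun _ _ => ⟨rfl, rfl, rfl⟩) fun x hx => by
    have e : f x = x := (hf x hx).self_of_nhds
    refine ⟨funext fun a => ?_, congrArg d.m.p e, congrArg d.m.r e⟩
    have e' : mfderiv I I f x = ContinuousLinearMap.id ℝ E := (hf x hx).mfderiv_eq.trans mfderiv_id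
    exact (congrArg (fun L : E →L[ℝ] E => L.inverse (d.e a (f x))) e').trans
      ((congrArg (fun L : E →L[ℝ] E => L (d.e a (f x))) ContinuousLinearMap.inverse_id).trans
        (congrArg (fun y => (d.e a y : E)) e))

end gen

variable {EN HN : Type} [NormedAddCommGroup EN] [NormedSpace ℝ EN] [FiniteDimensional ℝ EN]
  [TopologicalSpace HN] {IN : ModelWithCorners ℝ EN HN} [IN.Boundaryless]
  {N : Type} [TopologicalSpace N] [ChartedSpace HN N] [IsManifold IN ∞ N] [T2Space N]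
  {T : Tb IN N} {v : ℝ → Z2} {O : Set (Rod53.X T v)}

/-- the vertical push in the tube -/
def psh (β : ℝ → ℝ) (q : ℝ × (Circle × ℂ) × ℝ) : (Circle × ℂ) × ℝ :=
  ((q.2.1.1, (((1 - q.1) * max ‖q.2.1.2‖ (β q.2.2) + q.1 * ‖q.2.1.2‖ : ℝ) : ℂ) * dir q.2.1.2), q.2.2)

/-- the complement of the axis deforms out of the region under a graph -/
theorem dfm_graph {β : ℝ → ℝ} (hβ : Continuous β) {B : ℝ} (hb : ∀ t, β t ≤ B)
    (hO : T.ov v {q | q.2 ≤ β q.1} ∩ off T v ⊆ O) :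
    Dfm (O ∩ off T v) ((O ∩ off T v) \ T.ov v {q | q.2 < β q.1}) := by
  classical
  let e := (T.rod v uni_std).toOpenPartialHomeomorph
  let h : ℝ × Rod53.X T v → Rod53.X T v := fun q =>
    if q.2 ∈ T.tor v then T.rod v uni_std (psh β (q.1, e.symm q.2)) else q.2
  have h1 : ∀ x ∈ T.tor v, x ∈ off T v → ∃ w : (Circle × ℂ) × ℝ, w.1.2 ≠ 0 ∧ T.rod v uni_std w = x :=
    fun x a b => ((mem_tube (J := univ)).1 ⟨⟨a, b⟩, trivial⟩).imp fun _ k => ⟨k.1.1, k.2⟩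
  have h2 : ∀ t, ∀ w : (Circle × ℂ) × ℝ, w.1.2 ≠ 0 →
      h (t, T.rod v uni_std w) = T.rod v uni_std (psh β (t, w)) := fun t w a => by
    simp only [h, if_pos (T.rod_mem_tor uni_std (w := w) (Or.inl a))]
    rw [show e.symm (T.rod v uni_std w) = w from e.left_inv (Or.inl a)]
  have h3 : ∀ t ∈ Icc (0 : ℝ) 1, ∀ w : (Circle × ℂ) × ℝ, w.1.2 ≠ 0 → ∃ ρ : ℝ, ‖w.1.2‖ ≤ ρ ∧
      ρ ≤ max ‖w.1.2‖ (β w.2) ∧ (t = 0 → β w.2 ≤ ρ) ∧ (psh β (t, w)).1.2 = ρ * dir w.1.2 :=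
    fun t ht w _ => ⟨_, by nlinarith [le_max_left ‖w.1.2‖ (β w.2), ht.2],
      by nlinarith [le_max_left ‖w.1.2‖ (β w.2), ht.1], fun k => by simp [k], rfl⟩
  have h4 : ∀ t, ∀ w : (Circle × ℂ) × ℝ, β w.2 ≤ ‖w.1.2‖ → psh β (t, w) = w := fun t w a => by
    refine Prod.ext (Prod.ext rfl ?_) rfl
    simp only [psh, max_eq_left a]
    rw [← add_mul, sub_add_cancel, one_mul, Glue52.norm_mul_dir]
  have h5 : ∀ w : (Circle × ℂ) × ℝ, w.1.2 ≠ 0 → T.bs v (T.rod v uni_std w) = (w.2, ‖w.1.2‖) :=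
    fun w a => Prod.ext (T.time_rod _ (Or.inl a)) (T.yy_rod _ (Or.inl a))
  have h6 : ∀ t ∈ Icc (0 : ℝ) 1, ∀ w : (Circle × ℂ) × ℝ, w.1.2 ≠ 0 → (psh β (t, w)).1.2 ≠ 0 :=
    fun t ht w a => by
      obtain ⟨ρ, b1, -, -, b2⟩ := h3 t ht w a
      exact b2 ▸ mul_ne_zero (Complex.ofReal_ne_zero.2 ((norm_pos_iff.2 a).trans_le b1).ne')
        (Circle.coe_ne_zero _)
  have h7 : ∀ t ∈ Icc (0 : ℝ) 1, ∀ x ∈ O ∩ off T v, h (t, x) ∈ O ∩ off T v ∧
      (t = 0 → h (t, x) ∉ T.ov v {q | q.2 < β q.1}) := fun t ht x hx => by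
    by_cases a : x ∈ T.tor v
    · obtain ⟨w, b, rfl⟩ := h1 x a hx.2
      obtain ⟨ρ, b1, b2, b3, b4⟩ := h3 t ht w b
      have b5 := h5 _ (h6 t ht w b)
      rw [b4, norm_mul, Circle.norm_coe, mul_one, Complex.norm_of_nonneg ((norm_nonneg _).trans b1)] at b5
      have b6 := (rod_mem_off (T := T) (v := v) uni_std (Or.inl (h6 t ht w b))).2 (h6 t ht w b)
      rw [h2 t w b]
      refine ⟨⟨?_, b6⟩, fun k q => ?_⟩
      · rcases le_total (β w.2) ‖w.1.2‖ with k | k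
        · rw [h4 t w k]; exact hx.1
        · exact hO ⟨⟨T.rod_mem_tor _ (Or.inl (h6 t ht w b)), by
            rw [mem_preimage, b5]; exact b2.trans_eq (max_eq_right k)⟩, b6⟩
      · have := q.2
        rw [mem_preimage, b5] at this
        exact (b3 k).not_gt this
    · simp only [h, if_neg a]
      exact ⟨hx, fun _ k => a k.1⟩
  refine ⟨h, fun q hq => ContinuousAt.continuousWithinAt ?_, fun t ht x hx => (h7 t ht x hx).1,
    fun x hx => ⟨(h7 0 ⟨le_rfl, zero_le_one⟩ x hx).1, (h7 0 ⟨le_rfl, zero_le_one⟩ x hx).2 rfl⟩,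
    fun x hx => ?_⟩
  · obtain ⟨t, x⟩ := q
    by_cases a : x ∈ T.tor v
    · obtain ⟨w, b, rfl⟩ := h1 x a hq.2.2
      have c1 : ContinuousAt (psh β) (t, w) := by
        have : ContinuousAt (fun q : ℝ × (Circle × ℂ) × ℝ => dir q.2.1.2) (t, w) :=
          ContinuousAt.comp (g := dir) (f := fun q : ℝ × (Circle × ℂ) × ℝ => q.2.1.2) (x := (t, w))
            (Glue52.contMDiffAt_dir b).continuousAt (by fun_prop)
        unfold psh
        fun_prop
      have c2 : ContinuousAt (fun q : ℝ × Rod53.X T v => (q.1, e.symm q.2)) (t, T.rod v uni_std w) :=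
        continuousAt_fst.prodMk (ContinuousAt.comp (f := Prod.snd)
          (e.continuousAt_symm (e.map_source (Or.inl b))) continuousAt_snd)
      have c3 : e.symm (T.rod v uni_std w) = w := e.left_inv (Or.inl b)
      refine ((cont_std (T := T) (v := v) (h6 t hq.1 w b)).comp_of_eq (c1.comp_of_eq c2 (by rw [c3]))
        (by simp only [Function.comp_apply, c3])).congr ?_
      filter_upwards [(T.isOpen_tor.preimage continuous_snd).mem_nhds a] with q hq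
      exact (if_pos hq).symm
    · refine continuousAt_snd.congr ?_
      filter_upwards [((T.isClosed_ov (O := {q | q.2 ≤ B}) (isClosed_le continuous_snd continuous_const)
        fun _ k => k).isOpen_compl.preimage continuous_snd).mem_nhds fun k => a k.1,
        (isOpen_off.preimage continuous_snd).mem_nhds hq.2.2]
      rintro ⟨s, y⟩ b1 b2
      by_cases a' : y ∈ T.tor v
      · obtain ⟨w, b, rfl⟩ := h1 y a' b2
        rw [h2 s w b, h4 s w ((hb _).trans (le_of_not_ge fun k => b1 ⟨a', by rwa [mem_preimage, h5 w b]⟩))]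
      · exact (if_neg a').symm
  · by_cases a : x ∈ T.tor v
    · obtain ⟨w, b, rfl⟩ := h1 x a hx.2
      rw [h2 1 w b]
      simp [psh, Glue52.norm_mul_dir]
    · exact if_neg a

theorem Dfm.mono' {X : Type*} [TopologicalSpace X] {A B C : Set X} (h : Dfm A B) (k : B ⊆ C) : Dfm A C :=
  let ⟨f, a, b, c, d⟩ := h; ⟨f, a, b, fun x hx => k (c x hx), d⟩

/-- the complement of the axis deforms out of a half disc -/
theorem dfm_disc {c r : ℝ} (hr : 0 ≤ r) (hO : T.disc v c (Iic r) ∩ off T v ⊆ O) :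
    Dfm (O ∩ off T v) ((O ∩ off T v) \ T.disc v c (Iio r)) := by
  refine Dfm.mono' (dfm_graph (β := fun t => √(r ^ 2 - (t - c) ^ 2)) (by fun_prop) (B := r)
    (fun t => Real.sqrt_le_iff.2 ⟨hr, by linarith [sq_nonneg (t - c)]⟩) fun x hx => hO ⟨⟨hx.1.1, ?_⟩, hx.2⟩)
    (sdiff_subset_sdiff_right fun x hx => ⟨hx.1, ?_⟩)
  · obtain ⟨w, b, rfl⟩ := (mem_tube (J := univ)).1 ⟨⟨hx.1.1, hx.2⟩, trivial⟩
    have h1 : T.yy v _ ≤ √(r ^ 2 - (T.time v _ - c) ^ 2) := hx.1.2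
    have h2 := T.yy_rod (v := v) uni_std (Or.inl b.1)
    have h3 := (Real.le_sqrt' (h2 ▸ norm_pos_iff.2 b.1)).1 h1
    exact Real.sqrt_le_iff.2 ⟨hr, by simp only [Tb.bs]; linarith⟩
  · have h1 : √((T.time v x - c) ^ 2 + T.yy v x ^ 2) < r := hx.2
    rw [Real.sqrt_lt' ((Real.sqrt_nonneg _).trans_lt h1)] at h1
    exact Real.lt_sqrt_of_sq_lt (by simp only [Tb.bs]; linarith)

variable {ι ι' κ l μ : Type} [Fintype ι] [Fintype ι'] [Fintype κ] [Fintype l] [Fintype μ] [DecidableEq ι]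
  [DecidableEq ι'] [DecidableEq κ] [DecidableEq l] [SigmaCompactSpace (Rod53.X T v)]
  {d₀ : Sc (𝓡 4) (Rod53.X T v) ι κ} {d : Sc (𝓡 4) (Rod53.X T v) ι' l}
  {j : Rod53.X T v → Matrix (κ × κ) Unit ℂ} {σ : Rod53.X T v → Matrix l κ ℂ} {m m' : ℝ → ℤ}

/-- the label of a pull-back is read off from the determinant line -/
theorem lab_move {f : Rod53.X T v → Rod53.X T v} (hO : IsOpen O)
    (hf : ∀ x ∈ O, IsLocalDiffeomorphAt (𝓡 4) (𝓡 4) ∞ f x) (hm : MapsTo f O O) {W : Set (Rod53.X T v)}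
    (k : Dfm (O ∩ off T v) W) (hW : W ⊆ O ∩ off T v) (hi : ∀ x ∈ W, f =ᶠ[𝓝 x] id)
    (h₀ : d₀.On (O ∩ off T v)) (hj : Uni (𝓡 4) (fun _ => 1) d₀.det j (O ∩ off T v)) (h : d.On O)
    (hσ : Iw d₀ d σ W) {q : Rod53.X T v → Matrix μ μ ℂ} {s : Rod53.X T v → Matrix μ Unit ℂ}
    (hq : TL T v m' q s O) {U : Rod53.X T v → Matrix (l × l) μ ℂ}
    (hU : Uni (𝓡 4) q (fun x => d.det (f x)) U O) (e : ∀ x ∈ W, U x * s x = kk σ x * j x) :
    ∃ σ', Iw d₀ (d.pull (𝓡 4) f) σ' (O ∩ off T v) ∧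
      TL T v m' (d.pull (𝓡 4) f).det (fun x => kk σ' x * j x) O := by
  have h1 : TL T v m' (d.pull (𝓡 4) f).det (fun x => U x * s x) O := hq.trans hO hU
  obtain ⟨σ', a, b⟩ := exists_iw_dfm k (hO.inter isOpen_off) hW h₀
    ((h.pull hf hm).mono inter_subset_left) (iw_pull_id hσ hi) hj h1.fr fun x hx => (e x hx).symm
  exact ⟨σ', a, h1.congr_s hO b⟩

open Crest.Agent.X212.Tau19 in
/-- the twist along a sphere, given the isometry of the determinant lines -/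
theorem lab_tau {a b a' : Z2} {n e : ℕ} {c k R r : ℝ} (S : Sph v a b a' n c k R) (hn : n * e = 2)
    (hr : r ∈ Ioo (k ^ 2 / 2) R) (hO : IsOpen O) (hD : T.disc v c (Iio R) ⊆ O)
    (h₀ : d₀.On (O ∩ off T v)) (hj : Uni (𝓡 4) (fun _ => 1) d₀.det j (O ∩ off T v)) (h : d.On O)
    (hσ : Iw d₀ d σ (O ∩ off T v)) {q : Rod53.X T v → Matrix μ μ ℂ} {s : Rod53.X T v → Matrix μ Unit ℂ}
    (hq : TL T v m' q s O) {U : Rod53.X T v → Matrix (l × l) μ ℂ}
    (hU : Uni (𝓡 4) q (fun x => d.det (S.tau T hn hr x)) U O)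
    (hs : ∀ x ∈ O, x ∉ S.K T (rh k r) → x ∈ off T v → U x * s x = kk σ x * j x) :
    ∃ σ', Iw d₀ (d.pull (𝓡 4) (S.tau T hn hr)) σ' (O ∩ off T v) ∧
      TL T v m' (d.pull (𝓡 4) (S.tau T hn hr)).det (fun x => kk σ' x * j x) O := by
  obtain ⟨r', r1, r2⟩ := exists_between hr.2
  have r0 : 0 < r := lt_of_le_of_lt (by positivity) hr.1
  have hK : S.K T (rh k r) ⊆ T.disc v c (Iio r') :=
    fun x hx => ⟨(S.K_subset T hr.2 hx).1, lt_of_le_of_lt (S.K_subset T hr.2 hx).2 r1⟩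
  exact lab_move hO (fun x _ => (S.tau T hn hr).isLocalDiffeomorph x)
    (fun x hx => (S.tau_mem T hn hr (Or.inl (hK.trans fun y hy => hD ⟨hy.1, lt_trans hy.2 r2⟩))).2 hx)
    (dfm_disc (r0.trans r1).le fun y hy => hD ⟨hy.1.1, lt_of_le_of_lt hy.1.2 r2⟩) sdiff_subset
    (fun x hx => S.tau_ev T hn hr fun q => hx.2 (hK q)) h₀ hj h (hσ.mono sdiff_subset) hq hU
    fun x hx => hs x hx.1.1 (fun q => hx.2 (hK q)) hx.1.2

end Crest.Agent.X212.Cls19

namespace Crest.Agent.X212.Cls19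

open Crest.Agent.X212.Tau19

variable {EN HN : Type} [NormedAddCommGroup EN] [NormedSpace ℝ EN] [FiniteDimensional ℝ EN]
  [TopologicalSpace HN] {IN : ModelWithCorners ℝ EN HN} [IN.Boundaryless]
  {N : Type} [TopologicalSpace N] [ChartedSpace HN N] [IsManifold IN ∞ N] [T2Space N]
  {T : Tb IN N} {s : ℤ → Z2} {i : ℤ} {n e : ℕ} {r : ℝ} {w w' : ℤ → ℤ} {O : Set (Rod53.X T (wd s))}
  [SigmaCompactSpace (Rod53.X T (wd s))]

/-- a line whose orders differ from given ones at one rod between two vertices -/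
theorem exists_TL_update {κ : Type} [Fintype κ] (h1 : Rod53.Uni (s (i - 1)) (s i))
    (h2 : Rod53.Uni (s i) (s (i + 1))) (hw : ∀ j, j ≠ i → w' j = w j)
    {p : Rod53.X T (wd s) → Matrix κ κ ℂ} {σ : Rod53.X T (wd s) → Matrix κ Unit ℂ}
    (h : TL T (wd s) (wm s w) p σ O) :
    ∃ (q : Rod53.X T (wd s) → Matrix (κ × Option Bool) (κ × Option Bool) ℂ)
      (σ' : Rod53.X T (wd s) → Matrix (κ × Option Bool) Unit ℂ), TL T (wd s) (wm s w') q σ' O := by
  obtain ⟨q, t, k⟩ := exists_TL_wd (a := s) (n := w' - w) T fun j => by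
    by_cases e1 : j = i
    · exact ⟨_, e1 ▸ dual_left h1 _ _, e1 ▸ dual_right h1 _ _⟩
    by_cases e2 : j = i + 1
    · subst e2
      rw [add_sub_cancel_right]
      exact ⟨_, dual_left h2 _ _, dual_right h2 _ _⟩
    · exact ⟨0, by simp [hw (j - 1) (by omega)], by simp [hw j e1]⟩
  have := h.tens (k.mono (subset_univ O))
  rw [← wm_add, add_sub_cancel] at this
  exact ⟨_, _, this⟩

variable {ι ι' κ l : Type} [Fintype ι] [Fintype ι'] [Fintype κ] [Fintype l] [DecidableEq ι]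
  [DecidableEq ι'] [DecidableEq κ] [DecidableEq l]
  {d₀ : Sc (𝓡 4) (Rod53.X T (wd s)) ι κ} {d : Sc (𝓡 4) (Rod53.X T (wd s)) ι' l}
  {j : Rod53.X T (wd s) → Matrix (κ × κ) Unit ℂ} {σ : Rod53.X T (wd s) → Matrix l κ ℂ}

/-- **REFL** : the twists reflect the labels on words -/
theorem lab_tau_wd (hu : Rod53.Uni (s (i - 1)) (s i)) (h : s (i + 1) = -s (i - 1) + (n : ℤ) • s i)
    (hn : n * e = 2) (hr : r ∈ Ioo ((1 : ℝ) ^ 2 / 2) (3 / 2)) (hw : ∀ j, j ≠ i → w' j = w j)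
    (hi : w' i = -w i + e * (w (i - 1) + w (i + 1))) (hO : IsOpen O)
    (hD : T.disc (wd s) (i + 1 / 2) (Iio (3 / 2)) ⊆ O) (h₀ : d₀.On (O ∩ off T (wd s)))
    (hj : Uni (𝓡 4) (fun _ => 1) d₀.det j (O ∩ off T (wd s))) (hd : d.On O)
    (hσ : Iw d₀ d σ (O ∩ off T (wd s))) (hl : TL T (wd s) (wm s w) d.det (fun x => kk σ x * j x) O) :
    ∃ σ', Iw d₀ (d.pull (𝓡 4) ((sph_wd hu h).tau T hn hr)) σ' (O ∩ off T (wd s)) ∧
      TL T (wd s) (wm s w') (d.pull (𝓡 4) ((sph_wd hu h).tau T hn hr)).det (fun x => kk σ' x * j x) O := by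
  obtain ⟨q, t, hq⟩ := exists_TL_update hu (sph_wd hu h).uni' hw hl
  obtain ⟨U, a, b⟩ := exists_uni_wd hu h T hn hr hw hi hO hD hl hq
  exact lab_tau _ hn hr hO hD h₀ hj hd hσ hq a b

end Crest.Agent.X212.Cls19
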